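import Mathlib.Logic.Relation
import Mathlib.Order.Cover
import Mathlib.Data.Set.Defs

/-! Pure type systems with classical de Bruijn terms: lifting and substitution at a level `k`, one-hole
contexts for the compatible closure, and specifications given by sets of pairs and triples of sorts. -/

namespace Vale.Agent.Lib.P340.Arith

universe u

/-- Expressions over the type `S` of sorts; `var i` is bound by the `i`-th enclosing binder, or is a
free variable (declared in the context) if there are at most `i` enclosing binders. -/
inductive Term (S : Type u) : Type u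
  | var (i : ℕ) : Term S
  | srt (s : S) : Term S
  | app (M N : Term S) : Term S
  | lam (A M : Term S) : Term S
  | pi (A B : Term S) : Term S

namespace Term

variable {S : Type u}

/-- `lift k M`: all variables with index at least `k` are raised by one. -/
def lift : ℕ → Term S → Term S
  | k, var i => if i < k then var i else var (i + 1)
  | _, srt s => srt s
  | k, app M N => app (lift k M) (lift k N)
  | k, lam A M => lam (lift k A) (lift (k + 1) M)
  | k, pi A B => pi (lift k A) (lift (k + 1) B)

/-- `put k N M`: the variable `k` of `M` is replaced by `N`, the variables above `k` are lowered by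
one. -/
def put : ℕ → Term S → Term S → Term S
  | k, N, var i => if i < k then var i else if i = k then N else var (i - 1)
  | _, _, srt s => srt s
  | k, N, app P Q => app (put k N P) (put k N Q)
  | k, N, lam A P => lam (put k N A) (put (k + 1) (lift 0 N) P)
  | k, N, pi A B => pi (put k N A) (put (k + 1) (lift 0 N) B)

/-- Expressions with exactly one hole. -/
inductive Hole (S : Type u) : Type u
  | here : Hole S
  | appL (C : Hole S) (N : Term S) : Hole S
  | appR (M : Term S) (C : Hole S) : Hole S
  | lamL (C : Hole S) (M : Term S) : Hole S
  | lamR (A : Term S) (C : Hole S) : Hole S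
  | piL (C : Hole S) (B : Term S) : Hole S
  | piR (A : Term S) (C : Hole S) : Hole S

/-- Filling the hole (variables may be captured). -/
def Hole.fill : Hole S → Term S → Term S
  | .here, M => M
  | .appL C N, M => app (C.fill M) N
  | .appR P C, M => app P (C.fill M)
  | .lamL C P, M => lam (C.fill M) P
  | .lamR A C, M => lam A (C.fill M)
  | .piL C B, M => pi (C.fill M) B
  | .piR A C, M => pi A (C.fill M)

/-- One beta step: some subexpression `(λ A. P) Q` is replaced by `P[0 := Q]`. -/
def Beta (M N : Term S) : Prop :=
  ∃ (C : Hole S) (A P Q : Term S), M = C.fill (app (lam A P) Q) ∧ N = C.fill (put 0 Q P)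

end Term

/-- A specification: a set of axioms and a set of rules. -/
structure Spec (S : Type u) where
  /-- the axioms `(s, t)` -/
  axioms : Set (S × S)
  /-- the rules `(s₁, s₂, s₃)` -/
  rules : Set (S × S × S)

namespace Spec

variable {S : Type u}

open Term

/-- `P.Judge Γ M A` is `Γ ⊢ M : A`; the head of the list `Γ` is the declaration of the variable
`0`. -/
inductive Judge (P : Spec S) : List (Term S) → Term S → Term S → Prop
  | axiom_ {s t : S} (h : (s, t) ∈ P.axioms) : Judge P [] (srt s) (srt t)
  | variable_ {Γ : List (Term S)} {A : Term S} {s : S} (hA : Judge P Γ A (srt s)) :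
      Judge P (A :: Γ) (var 0) (lift 0 A)
  | weakening {Γ : List (Term S)} {M B A : Term S} {s : S} (hM : Judge P Γ M B)
      (hA : Judge P Γ A (srt s)) : Judge P (A :: Γ) (lift 0 M) (lift 0 B)
  | product {Γ : List (Term S)} {A B : Term S} {s₁ s₂ s₃ : S} (hA : Judge P Γ A (srt s₁))
      (hB : Judge P (A :: Γ) B (srt s₂)) (h : (s₁, s₂, s₃) ∈ P.rules) : Judge P Γ (pi A B) (srt s₃)
  | abstraction {Γ : List (Term S)} {A B M : Term S} {s : S} (hM : Judge P (A :: Γ) M B)
      (hB : Judge P Γ (pi A B) (srt s)) : Judge P Γ (lam A M) (pi A B)
  | application {Γ : List (Term S)} {A B M N : Term S} (hM : Judge P Γ M (pi A B))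
      (hN : Judge P Γ N A) : Judge P Γ (app M N) (put 0 N B)
  | conversion {Γ : List (Term S)} {M A B : Term S} {s : S} (hM : Judge P Γ M A)
      (hB : Judge P Γ B (srt s)) (h : Relation.EqvGen Beta A B) : Judge P Γ M B

/-- `M` is the subject or the type of a derivable judgment. -/
def IsLegal (P : Spec S) (M : Term S) : Prop :=
  ∃ Γ, (∃ A, P.Judge Γ M A) ∨ ∃ N, P.Judge Γ N M

/-- Every legal expression reduces to an expression without a redex. -/
def WeakNorm (P : Spec S) : Prop :=
  ∀ M, P.IsLegal M → ∃ N, Relation.ReflTransGen Beta M N ∧ ¬ ∃ N', Beta N N'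

/-- No legal expression is the start of an infinite sequence of beta steps. -/
def StrongNorm (P : Spec S) : Prop :=
  ¬ ∃ f : ℕ → Term S, P.IsLegal (f 0) ∧ ∀ i, Beta (f i) (f (i + 1))

end Spec

end Vale.Agent.Lib.P340.Arith
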