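import Vale.Agent.Lib.P340.ModelA

/-! Existence of shape functions. -/

namespace Vale.Agent.Lib.P340.Core

open Tm

variable {S : Sys}

/-- if types of sort `p` have no products over types of sort `p` then all shapes are trivial -/
def shapeTriv (S : Sys) (p : ℕ) (h : ¬ S.R p p) : ShapeFn S p where
  sh := fun _ => .o
  conv_eq := fun _ _ _ => rfl
  pi_lo := fun r _ _ _ => (h r).elim
  pi_hi := fun _ _ _ _ _ => rfl
  srt_eq := fun _ => rfl

inductive HS (q : ℕ) : (ℕ → ℕ) → Tm → Shape → Prop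
  | hsrt {Δ : ℕ → ℕ} {T : Tm} {k : ℕ} : Red T (srt k) → HS q Δ T Shape.o
  | heps {Δ : ℕ → ℕ} {T A : Tm} {l : List Tm} : Red T (appl (Tm.eps A) l) → HS q Δ T Shape.o
  | hlo {Δ : ℕ → ℕ} {T A B : Tm} {a b : Shape} : Red T (pi A B) → lev Δ A = q →
      HS q Δ A a → HS q (scons (lev Δ A - 1) Δ) B b → HS q Δ T (Shape.arr a b)
  | hhi {Δ : ℕ → ℕ} {T A B : Tm} {b : Shape} : Red T (pi A B) → q < lev Δ A →
      HS q (scons (lev Δ A - 1) Δ) B b → HS q Δ T b

theorem HS.exp {q : ℕ} {Δ : ℕ → ℕ} {T T0 : Tm} {s : Shape} (h : HS q Δ T s)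
    (r : Red T0 T) : HS q Δ T0 s := by
  cases h with
  | hsrt h => exact HS.hsrt (r.trans h)
  | heps h => exact HS.heps (r.trans h)
  | hlo h h1 h2 h3 => exact HS.hlo (r.trans h) h1 h2 h3
  | hhi h h1 h2 => exact HS.hhi (r.trans h) h1 h2

theorem sub_appl (σ : ℕ → Tm) (t : Tm) (l : List Tm) :
    sub σ (appl t l) = appl (sub σ t) (l.map (sub σ)) := by
  induction l generalizing t with
  | nil => rfl
  | cons u l ih => simp [ih]

theorem HS.sub {q : ℕ} {Δ : ℕ → ℕ} {T : Tm} {s : Shape} (h : HS q Δ T s) :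
    ∀ {σ : ℕ → Tm} {Δ' : ℕ → ℕ}, (∀ x, lev Δ' (σ x) = Δ x) → HS q Δ' (sub σ T) s := by
  have hl : ∀ {σ : ℕ → Tm} {Δ Δ' : ℕ → ℕ}, (∀ x, lev Δ' (σ x) = Δ x) →
      ∀ A, lev Δ' (Core.sub σ A) = lev Δ A := by
    intro σ Δ Δ' h A
    rw [lev_sub]
    congr 1
    funext x
    exact h x
  have hup : ∀ {σ : ℕ → Tm} {Δ Δ' : ℕ → ℕ} {a : ℕ}, (∀ x, lev Δ' (σ x) = Δ x) →
      ∀ x, lev (scons a Δ') (up σ x) = scons a Δ x := by
    intro σ Δ Δ' a h x
    cases x with
    | zero => rfl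
    | succ n => exact (lev_shift _ _ _).trans (h n)
  induction h with
  | hsrt h => intro σ Δ' _; exact HS.hsrt (Red.sub σ h)
  | heps h =>
    intro σ Δ' _
    have := Red.sub σ h
    rw [sub_appl] at this
    exact HS.heps this
  | hlo h h1 h2 h3 ih2 ih3 =>
    intro σ Δ' hσ
    refine HS.hlo (Red.sub σ h) ((hl hσ _).trans h1) (ih2 hσ) ?_
    rw [hl hσ]
    exact ih3 (hup hσ)
  | hhi h h1 h2 ih2 =>
    intro σ Δ' hσ
    refine HS.hhi (Red.sub σ h) (by rw [hl hσ]; exact h1) ?_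
    rw [hl hσ]
    exact ih2 (hup hσ)

theorem red_appl_eps {A : Tm} {l : List Tm} {u : Tm} (h : Red (appl (Tm.eps A) l) u) :
    ∃ A' l', u = appl (Tm.eps A') l' := by
  induction h with
  | refl => exact ⟨A, l, rfl⟩
  | tail _ s ih =>
    obtain ⟨A', l', rfl⟩ := ih
    rcases step_appl s with ⟨t', s', e⟩ | ⟨l'', s', e⟩ | ⟨_, _, _, _, e, _, _⟩
    · cases s' with
      | epsD s' => exact ⟨_, _, e⟩
    · exact ⟨_, _, e⟩
    · cases e

theorem appl_eps_ne_pi {A : Tm} {l : List Tm} {B C : Tm} (h : appl (Tm.eps A) l = pi B C) :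
    False := by
  rcases List.eq_nil_or_concat l with rfl | ⟨l', u, rfl⟩
  · cases h
  · rw [List.concat_eq_append, appl_snoc] at h
    cases h

theorem cv_eps_pi {A : Tm} {l : List Tm} {B C : Tm} (h : Cv (appl (Tm.eps A) l) (pi B C)) :
    False := by
  obtain ⟨D, h1, h2⟩ := h
  obtain ⟨A', l', rfl⟩ := red_appl_eps h1
  obtain ⟨B', C', e, _, _⟩ := red_pi h2
  exact appl_eps_ne_pi e

theorem HS.unique {p : ℕ} {Δ : ℕ → ℕ} {T : Tm} {s : Shape} (h : HS (p + 1) Δ T s) :
    ∀ {Γ : Ctx} {T' : Tm} {s' : Shape}, WC S Γ → LC Γ Δ → Ty S Γ T (srt p) →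
      Ty S Γ T' (srt p) → Cv T T' → HS (p + 1) Δ T' s' → s = s' := by
  induction h with
  | hsrt h =>
    intro Γ T' s' w l hT hT' c h'
    cases h' with
    | hsrt h' => rfl
    | heps h' => rfl
    | hlo h' h1 h2 h3 => exact (Cv.srt_pi ((Cv.of_red h).symm.trans (c.trans (Cv.of_red h')))).elim
    | hhi h' h1 h2 => exact (Cv.srt_pi ((Cv.of_red h).symm.trans (c.trans (Cv.of_red h')))).elim
  | heps h =>
    intro Γ T' s' w l hT hT' c h'
    cases h' with
    | hsrt h' => rfl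
    | heps h' => rfl
    | hlo h' h1 h2 h3 => exact (cv_eps_pi ((Cv.of_red h).symm.trans (c.trans (Cv.of_red h')))).elim
    | hhi h' h1 h2 => exact (cv_eps_pi ((Cv.of_red h).symm.trans (c.trans (Cv.of_red h')))).elim
  | @hlo Δ T A B a b h h1 h2 h3 ih2 ih3 =>
    intro Γ T' s' w l hT hT' c h'
    have tAB := hT.red w h
    obtain ⟨i, j, r, hA, hB, cj⟩ := tAB.gen_pi
    have hj := cj.srt_inj
    subst hj
    have eA := hA.lev_srt w l
    have hi : i = j := by omega
    subst hi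
    cases h' with
    | hsrt h' => exact (Cv.srt_pi ((Cv.of_red h').symm.trans (c.symm.trans (Cv.of_red h)))).elim
    | heps h' => exact (cv_eps_pi ((Cv.of_red h').symm.trans (c.symm.trans (Cv.of_red h)))).elim
    | @hlo _ _ A' B' a' b' h' h1' h2' h3' =>
      have tAB' := hT'.red w h'
      obtain ⟨i', j', r', hA', hB', cj'⟩ := tAB'.gen_pi
      have hj' := cj'.srt_inj
      subst hj'
      have eA' := hA'.lev_srt w l
      have hi' : i' = j' := by omega
      subst hi'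
      obtain ⟨c1, c2⟩ := ((Cv.of_red h).symm.trans (c.trans (Cv.of_red h'))).pi_inj
      have e1 := ih2 w l hA hA' c1 h2'
      rw [h1] at h3 ih3
      rw [h1'] at h3'
      have l' : LC (ext A Γ) (scons (i' + 1 - 1) Δ) := l.ext hA w
      have e2 := ih3 (w.ext hA) l' hB (hB'.ctx_conv w hA' hA c1.symm) c2 h3'
      rw [e1, e2]
    | @hhi _ _ A' B' b' h' h1' h2' =>
      exfalso
      have tAB' := hT'.red w h'
      obtain ⟨i', j', r', hA', hB', cj'⟩ := tAB'.gen_pi
      have eA' := hA'.lev_srt w l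
      obtain ⟨c1, c2⟩ := ((Cv.of_red h).symm.trans (c.trans (Cv.of_red h'))).pi_inj
      have := hA.sort_cv w hA' c1
      omega
  | @hhi Δ T A B b h h1 h2 ih2 =>
    intro Γ T' s' w l hT hT' c h'
    have tAB := hT.red w h
    obtain ⟨i, j, r, hA, hB, cj⟩ := tAB.gen_pi
    have hj := cj.srt_inj
    subst hj
    have eA := hA.lev_srt w l
    cases h' with
    | hsrt h' => exact (Cv.srt_pi ((Cv.of_red h').symm.trans (c.symm.trans (Cv.of_red h)))).elim
    | heps h' => exact (cv_eps_pi ((Cv.of_red h').symm.trans (c.symm.trans (Cv.of_red h)))).elim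
    | @hlo _ _ A' B' a' b' h' h1' h2' h3' =>
      exfalso
      have tAB' := hT'.red w h'
      obtain ⟨i', j', r', hA', hB', cj'⟩ := tAB'.gen_pi
      have eA' := hA'.lev_srt w l
      obtain ⟨c1, c2⟩ := ((Cv.of_red h).symm.trans (c.trans (Cv.of_red h'))).pi_inj
      have := hA.sort_cv w hA' c1
      omega
    | @hhi _ _ A' B' b' h' h1' h2' =>
      have tAB' := hT'.red w h'
      obtain ⟨i', j', r', hA', hB', cj'⟩ := tAB'.gen_pi
      have hj' := cj'.srt_inj
      subst hj'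
      have eA' := hA'.lev_srt w l
      obtain ⟨c1, c2⟩ := ((Cv.of_red h).symm.trans (c.trans (Cv.of_red h'))).pi_inj
      have e0 := hA.sort_cv w hA' c1
      subst e0
      rw [eA] at h2 ih2
      rw [eA'] at h2'
      have l' : LC (ext A Γ) (scons (i + 1 - 1) Δ) := l.ext hA w
      exact ih2 (w.ext hA) l' hB (hB'.ctx_conv w hA' hA c1.symm) c2 h2'

/-! ### Normal forms -/

theorem lev_appl (Δ : ℕ → ℕ) (t : Tm) (l : List Tm) : lev Δ (appl t l) = lev Δ t := by
  induction l generalizing t with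
  | nil => rfl
  | cons u l ih => rw [appl_cons, ih]; rfl

theorem Ty.appl_head {Γ : Ctx} {t : Tm} {l : List Tm} {C : Tm} (h : Ty S Γ (appl t l) C) :
    ∃ C', Ty S Γ t C' := by
  induction l generalizing t C with
  | nil => exact ⟨C, h⟩
  | cons u l ih =>
    obtain ⟨C', h'⟩ := ih h
    obtain ⟨A, B, i, j, r, h1, h2, h3, h4, h5⟩ := h'.gen_app
    exact ⟨_, h3⟩

/-- a normal typed application has a variable or a dummy at its head -/
theorem nrm_app {Γ : Ctx} {M N C : Tm} (hn : Nrm (app M N)) (h : Ty S Γ (app M N) C) :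
    (∃ A l, app M N = appl (Tm.eps A) l) ∨ ∃ x l, app M N = appl (Tm.var x) l := by
  induction M generalizing N C with
  | var x => exact Or.inr ⟨x, [N], rfl⟩
  | srt i =>
    obtain ⟨A, B, i, j, r, h1, h2, h3, h4, h5⟩ := h.gen_app
    exact (Cv.srt_pi h3.gen_srt.2).elim
  | app M P ihM ihP =>
    have hn' : Nrm (app M P) := fun Q s => hn _ (Step.appL N s)
    obtain ⟨A, B, i, j, r, h1, h2, h3, h4, h5⟩ := h.gen_app
    rcases ihM hn' h3 with ⟨A, l, e⟩ | ⟨x, l, e⟩
    · exact Or.inl ⟨A, l ++ [N], by rw [appl_snoc, ← e]⟩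
    · exact Or.inr ⟨x, l ++ [N], by rw [appl_snoc, ← e]⟩
  | lam A P _ _ => exact (hn _ (Step.beta A P N)).elim
  | pi A' B' _ _ =>
    obtain ⟨A, B, i, j, r, h1, h2, h3, h4, h5⟩ := h.gen_app
    obtain ⟨i', j', r', hA', hB', c⟩ := h3.gen_pi
    exact (Cv.srt_pi c).elim
  | eps A _ => exact Or.inl ⟨A, [N], rfl⟩

theorem HS.exists_nrm {p : ℕ} (hR : ¬ S.R (p + 1) p) (N : Tm) : ∀ {Γ : Ctx} {Δ : ℕ → ℕ},
    WC S Γ → LC Γ Δ → (∀ x A, Γ x = some A → Δ x ≠ p + 1) → Nrm N → Ty S Γ N (srt p) →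
    ∃ s, HS (p + 1) Δ N s := by
  induction N with
  | var x =>
    intro Γ Δ w l hΓ hn h
    obtain ⟨A, i, h1, h2, h3⟩ := h.gen_var
    exact (hΓ x A h1 (h.lev_srt w l)).elim
  | srt k => intro Γ Δ w l hΓ hn h; exact ⟨_, HS.hsrt (Red.refl _)⟩
  | app M N ihM ihN =>
    intro Γ Δ w l hΓ hn h
    rcases nrm_app hn h with ⟨A, l', e⟩ | ⟨x, l', e⟩
    · exact ⟨_, HS.heps (by rw [e]; exact Red.refl _)⟩
    · exfalso
      have e1 := h.lev_srt w l
      rw [e, lev_appl] at e1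
      rw [e] at h
      obtain ⟨C', h'⟩ := h.appl_head
      obtain ⟨A, i, h1, h2, h3⟩ := h'.gen_var
      exact hΓ x A h1 e1
  | lam A M ihA ihM =>
    intro Γ Δ w l hΓ hn h
    obtain ⟨B, i, j, r, h1, h2, h3, h4⟩ := h.gen_lam
    exact (Cv.srt_pi h4.symm).elim
  | pi A B ihA ihB =>
    intro Γ Δ w l hΓ hn h
    obtain ⟨i, j, r, hA, hB, c⟩ := h.gen_pi
    have hj := c.srt_inj
    subst hj
    have hnA : Nrm A := fun Q s => hn _ (Step.piD B s)
    have hnB : Nrm B := fun Q s => hn _ (Step.piB A s)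
    have eA := hA.lev_srt w l
    have hji := S.le r
    have hi : i ≠ j + 1 := fun e => hR (e ▸ r)
    have hΓ' : ∀ x C, ext A Γ x = some C → scons i Δ x ≠ j + 1 := by
      intro x C hx
      cases x with
      | zero => exact hi
      | succ n =>
        simp only [ext_succ, Option.map_eq_some_iff] at hx
        obtain ⟨D, hD, rfl⟩ := hx
        exact hΓ n D hD
    obtain ⟨b, hb⟩ := ihB (w.ext hA) (l.ext hA w) hΓ' hnB hB
    have hb' : HS (j + 1) (scons (lev Δ A - 1) Δ) B b := by rw [eA]; exact hb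
    rcases Nat.lt_or_eq_of_le hji with h' | h'
    · exact ⟨b, HS.hhi (Red.refl _) (by omega) hb'⟩
    · subst h'
      obtain ⟨a, ha⟩ := ihA w l hΓ hnA hA
      exact ⟨_, HS.hlo (Red.refl _) eA ha hb'⟩
  | eps A ihA => intro Γ Δ w l hΓ hn h; exact ⟨_, HS.heps (l := []) (Red.refl _)⟩

theorem HS.exists_closed {p : ℕ} (hR : ¬ S.R (p + 1) p) (hs : SNge S (p + 1)) {T : Tm}
    (h : Ty S nil T (srt p)) : ∃ s, HS (p + 1) (fun _ => 0) T s := by
  have hT : SN T := by
    refine hs _ _ h ?_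
    rw [lev0, h.lev_srt WC.nil (LC.nil _)]
  obtain ⟨N, r, hn⟩ := hT.wn
  obtain ⟨s, h'⟩ := HS.exists_nrm hR N WC.nil (LC.nil (fun _ => 0))
    (fun x A hx => by cases hx) hn (h.red WC.nil r)
  exact ⟨s, h'.exp r⟩

open Classical in
/-- shape of a closed type -/
noncomputable def shapeU (p : ℕ) (T : Tm) : Shape :=
  if h : ∃ s, HS (p + 1) (fun _ => 0) T s then h.choose else Shape.o

theorem shapeU_spec {p : ℕ} {T : Tm} {s : Shape} (h : Ty S nil T (srt p))
    (h' : HS (p + 1) (fun _ => 0) T s) : shapeU p T = s := by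
  have hex : ∃ s, HS (p + 1) (fun _ => 0) T s := ⟨s, h'⟩
  rw [shapeU, dif_pos hex]
  exact HS.unique hex.choose_spec WC.nil (LC.nil _) h h (Cv.refl _) h'

theorem scons_zero_fun (a : ℕ) (D : Tm) (h : lev (fun _ => 0) D = a) :
    ∀ x, lev (fun _ => 0) (scons D Tm.var x) = scons a (fun _ => 0) x := by
  intro x
  cases x with
  | zero => exact h
  | succ n => rfl

noncomputable def shapeUF (S : Sys) (p : ℕ) (hR : ¬ S.R (p + 1) p) (hs : SNge S (p + 1)) :
    ShapeFn S p where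
  sh := shapeU p
  conv_eq := fun {T T'} h h' c => by
    obtain ⟨s, hs1⟩ := HS.exists_closed hR hs h
    obtain ⟨s', hs2⟩ := HS.exists_closed hR hs h'
    rw [shapeU_spec h hs1, shapeU_spec h' hs2]
    exact HS.unique hs1 WC.nil (LC.nil _) h h' c hs2
  pi_lo := fun {A B u} r hA hB hu => by
    have hP := Ty.pi r hA hB
    obtain ⟨s, h'⟩ := HS.exists_closed hR hs hP
    rw [shapeU_spec hP h']
    have eA := hA.lev_srt WC.nil (LC.nil (fun _ => 0))
    cases h' with
    | hsrt h' => exact (Cv.srt_pi (Cv.of_red h').symm).elim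
    | heps h' => exact (cv_eps_pi (Cv.of_red h').symm).elim
    | @hlo _ _ A' B' a b h' h1 h2 h3 =>
      obtain ⟨A1, B1, e, r1, r2⟩ := red_pi h'
      cases e
      rw [shapeU_spec hA (h2.exp r1)]
      congr 1
      symm
      refine shapeU_spec (hB.inst hu WC.nil) (HS.exp ?_ (Red.inst r2 (Red.refl u)))
      refine h3.sub (scons_zero_fun _ _ ?_)
      rw [hu.lev_typ hA WC.nil (LC.nil _), h1]
      rfl
    | @hhi _ _ A' B' b h' h1 h2 =>
      exfalso
      obtain ⟨A1, B1, e, r1, r2⟩ := red_pi h'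
      cases e
      have := hA.lev_red WC.nil (LC.nil (fun _ => 0)) r1
      omega
  pi_hi := fun {A B D i} hi r hA hB hD => by
    have hP := Ty.pi r hA hB
    obtain ⟨s, h'⟩ := HS.exists_closed hR hs hP
    rw [shapeU_spec hP h']
    have eA := hA.lev_srt WC.nil (LC.nil (fun _ => 0))
    cases h' with
    | hsrt h' => exact (Cv.srt_pi (Cv.of_red h').symm).elim
    | heps h' => exact (cv_eps_pi (Cv.of_red h').symm).elim
    | @hlo _ _ A' B' a b h' h1 h2 h3 =>
      exfalso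
      obtain ⟨A1, B1, e, r1, r2⟩ := red_pi h'
      cases e
      have := hA.lev_red WC.nil (LC.nil (fun _ => 0)) r1
      omega
    | @hhi _ _ A' B' b h' h1 h2 =>
      obtain ⟨A1, B1, e, r1, r2⟩ := red_pi h'
      cases e
      have e2 := hA.lev_red WC.nil (LC.nil (fun _ => 0)) r1
      symm
      refine shapeU_spec (hB.inst hD WC.nil) (HS.exp ?_ (Red.inst r2 (Red.refl D)))
      refine h2.sub (scons_zero_fun _ _ ?_)
      rw [hD.lev_typ hA WC.nil (LC.nil _), e2, eA]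
      rfl
  srt_eq := fun k => by
    have hex : ∃ s, HS (p + 1) (fun _ => 0) (srt k) s := ⟨_, HS.hsrt (Red.refl _)⟩
    rw [shapeU, dif_pos hex]
    have hc := hex.choose_spec
    generalize hex.choose = s at hc
    cases hc with
    | hsrt _ => rfl
    | heps _ => rfl
    | hlo h' _ _ _ => exact (Cv.srt_pi (Cv.of_red h')).elim
    | hhi h' _ _ => exact (Cv.srt_pi (Cv.of_red h')).elim

end Vale.Agent.Lib.P340.Core
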