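import Vale.Agent.Lib.P340.ModelC
import Vale.Agent.Lib.P340.ShapeEx

/-! Strong normalization of the internal calculus. -/

namespace Vale.Agent.Lib.P340.Core

open Tm

variable {S : Sys}

/-- the rules of the inconsistent system do not occur at any level -/
def PatFree (S : Sys) : Prop :=
  ∀ m, ¬ (S.R m m ∧ S.R (m + 1) m ∧ S.R (m + 1) (m + 1) ∧ S.R (m + 2) (m + 1))

theorem SNge.mono {k l : ℕ} (h : SNge S k) (hkl : k ≤ l) : SNge S l :=
  fun M A hM hl => h M A hM (hkl.trans hl)

theorem snge_all (hE : S.E) (hpf : PatFree S) : ∀ d k : ℕ, S.n + 1 ≤ k + d → SNge S k := by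
  intro d
  induction d with
  | zero =>
    intro k hk M A h hl
    have := h.lev_le WC.nil (LC.nil (fun _ => 0))
    rw [lev0] at hl
    omega
  | succ d ih =>
    intro k hk
    have hs : SNge S (k + 1) := ih (k + 1) (by omega)
    have h := hpf k
    by_cases h1 : S.R k k
    · by_cases h2 : S.R (k + 1) k
      · have hm : k + 1 < S.n := S.lt h2
        by_cases h3 : S.R (k + 1) (k + 1)
        · have h4 : ¬ S.R (k + 2) (k + 1) := fun h4 => h ⟨h1, h2, h3, h4⟩
          exact SNge.of_mdl hE hs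
            (mdlB (shapeUF S (k + 1) h4 (hs.mono (Nat.le_succ _))) hE hs hm)
        · exact SNge.of_mdl hE hs (mdlB (shapeTriv S (k + 1) h3) hE hs hm)
      · exact SNge.of_mdl hE hs (mdlA hE hs (shapeUF S k h2 hs))
    · exact SNge.of_mdl hE hs (mdlA hE hs (shapeTriv S k h1))

theorem sn_closed (hE : S.E) (hpf : PatFree S) {M A : Tm} (h : Ty S nil M A) : SN M :=
  snge_all hE hpf (S.n + 1) 0 (by omega) M A h (Nat.zero_le _)

/-- every typed term in a closable context is strongly normalizing -/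
theorem sn_open (hE : S.E) (hpf : PatFree S) {Γ : Ctx} {M A : Tm} {ρ : ℕ → Tm}
    (hρ : TS S Γ ρ nil) (h : Ty S Γ M A) : SN M :=
  SN.of_sub (sn_closed hE hpf (h.sub hρ))

end Vale.Agent.Lib.P340.Core
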