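import Vale.Agent.Lib.P340.Defs
import Vale.Agent.Lib.P340.Main
import Mathlib.Algebra.Order.BigOperators.Group.Finset

/-! Translation of pure type systems into the internal calculus. -/

namespace Vale.Agent.Lib.P340

open Core (Tm Ctx Ty Sys)

universe u

variable {S : Type u}

namespace Exp

def emb (f : S → ℕ) : Exp S → Tm
  | var n => Tm.var n
  | sort s => Tm.srt (f s)
  | app M N => Tm.app (emb f M) (emb f N)
  | lam A M => Tm.lam (emb f A) (emb f M)
  | pi A B => Tm.pi (emb f A) (emb f B)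

theorem upr_eq (ξ : ℕ → ℕ) : upr ξ = Core.upr ξ := by
  funext x; cases x <;> rfl

theorem emb_rename (f : S → ℕ) (ξ : ℕ → ℕ) (M : Exp S) :
    emb f (rename ξ M) = Core.ren ξ (emb f M) := by
  induction M generalizing ξ with
  | var n => rfl
  | sort s => rfl
  | app M N ihM ihN => simp only [rename, emb, Core.ren, ihM, ihN]
  | lam A M ihA ihM => simp only [rename, emb, Core.ren, ihA, ihM, upr_eq]
  | pi A M ihA ihM => simp only [rename, emb, Core.ren, ihA, ihM, upr_eq]

theorem emb_shift (f : S → ℕ) (M : Exp S) : emb f (shift M) = Core.shift (emb f M) :=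
  emb_rename f _ M

theorem emb_ups (f : S → ℕ) (σ : ℕ → Exp S) :
    (fun x => emb f (ups σ x)) = Core.up (fun x => emb f (σ x)) := by
  funext x
  cases x with
  | zero => rfl
  | succ n => exact emb_shift f _

theorem emb_subst (f : S → ℕ) (σ : ℕ → Exp S) (M : Exp S) :
    emb f (subst σ M) = Core.sub (fun x => emb f (σ x)) (emb f M) := by
  induction M generalizing σ with
  | var n => rfl
  | sort s => rfl
  | app M N ihM ihN => simp only [subst, emb, Core.sub, ihM, ihN]
  | lam A M ihA ihM => simp only [subst, emb, Core.sub, ihA, ihM, emb_ups]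
  | pi A M ihA ihM => simp only [subst, emb, Core.sub, ihA, ihM, emb_ups]

theorem emb_inst (f : S → ℕ) (M N : Exp S) :
    emb f (inst M N) = Core.inst (emb f M) (emb f N) := by
  rw [inst, emb_subst, Core.inst]
  congr 1
  funext x
  cases x <;> rfl

theorem emb_step (f : S → ℕ) {M N : Exp S} (h : Step M N) :
    Core.Step (emb f M) (emb f N) := by
  induction h with
  | beta A M N => rw [emb_inst]; exact Core.Step.beta _ _ _
  | appL N _ ih => exact Core.Step.appL _ ih
  | appR M _ ih => exact Core.Step.appR _ ih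
  | lamD M _ ih => exact Core.Step.lamD _ ih
  | lamB A _ ih => exact Core.Step.lamB _ ih
  | piD M _ ih => exact Core.Step.piD _ ih
  | piB A _ ih => exact Core.Step.piB _ ih

theorem emb_betaEq (f : S → ℕ) {M N : Exp S} (h : BetaEq M N) :
    Core.Cv (emb f M) (emb f N) := by
  induction h with
  | rel _ _ h => exact Core.Cv.of_step (emb_step f h)
  | refl _ => exact Core.Cv.refl _
  | symm _ _ _ ih => exact ih.symm
  | trans _ _ _ _ _ ih1 ih2 => exact ih1.trans ih2

theorem emb_red (f : S → ℕ) {M N : Exp S} (h : Relation.ReflTransGen Step M N) :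
    Core.Red (emb f M) (emb f N) := by
  induction h with
  | refl => exact Core.Red.refl _
  | tail _ h ih => exact ih.trans (Core.Red.single (emb_step f h))

theorem step_emb (f : S → ℕ) {M : Exp S} {u : Tm} (h : Core.Step (emb f M) u) :
    ∃ N, Step M N ∧ u = emb f N := by
  induction M generalizing u with
  | var n => cases h
  | sort s => cases h
  | app M N ihM ihN =>
    simp only [emb] at h
    generalize hM : emb f M = M' at h
    cases h with
    | beta A P _ =>
      cases M with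
      | lam A0 P0 =>
        simp only [emb, Tm.lam.injEq] at hM
        obtain ⟨h1, h2⟩ := hM
        subst h1 h2
        exact ⟨_, Step.beta _ _ _, (emb_inst f _ _).symm⟩
      | var n => cases hM
      | sort n => cases hM
      | app _ _ => cases hM
      | pi _ _ => cases hM
    | appL _ h =>
      subst hM
      obtain ⟨N', h1, rfl⟩ := ihM h
      exact ⟨_, Step.appL _ h1, rfl⟩
    | appR _ h =>
      subst hM
      obtain ⟨N', h1, rfl⟩ := ihN h
      exact ⟨_, Step.appR _ h1, rfl⟩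
  | lam A M ihA ihM =>
    cases h with
    | lamD _ h =>
      obtain ⟨N', h1, rfl⟩ := ihA h
      exact ⟨_, Step.lamD _ h1, rfl⟩
    | lamB _ h =>
      obtain ⟨N', h1, rfl⟩ := ihM h
      exact ⟨_, Step.lamB _ h1, rfl⟩
  | pi A M ihA ihM =>
    cases h with
    | piD _ h =>
      obtain ⟨N', h1, rfl⟩ := ihA h
      exact ⟨_, Step.piD _ h1, rfl⟩
    | piB _ h =>
      obtain ⟨N', h1, rfl⟩ := ihM h
      exact ⟨_, Step.piB _ h1, rfl⟩

theorem no_seq_of_sn (f : S → ℕ) {M : Exp S} (h : Core.SN (emb f M)) :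
    ¬ ∃ g : ℕ → Exp S, g 0 = M ∧ ∀ n, Step (g n) (g (n + 1)) := by
  generalize hq : emb f M = q at h
  induction h generalizing M with
  | intro q _ ih =>
    subst hq
    rintro ⟨g, rfl, hg⟩
    exact ih _ (emb_step f (hg 0)) rfl ⟨fun n => g (n + 1), rfl, fun n => hg (n + 1)⟩

end Exp

/-! ### Contexts -/

def ofList : List Tm → Ctx
  | [] => Core.nil
  | A :: L => Core.ext A (ofList L)

inductive WL (T : Sys) : List Tm → Prop
  | nil : WL T []
  | cons {A : Tm} {L : List Tm} {i : ℕ} : WL T L → Ty T (ofList L) A (Tm.srt i) → WL T (A :: L)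

theorem WL.wc {T : Sys} {L : List Tm} (h : WL T L) : Core.WC T (ofList L) := by
  induction h with
  | nil => exact Core.WC.nil
  | cons _ hA ih => exact ih.ext hA

theorem WL.close {T : Sys} (hE : T.E) {L : List Tm} (h : WL T L) :
    ∃ ρ, Core.TS T (ofList L) ρ Core.nil := by
  induction h with
  | nil => exact ⟨Tm.var, Core.TS.nil _ _⟩
  | @cons A L i _ hA ih =>
    obtain ⟨ρ, hρ⟩ := ih
    exact ⟨_, hρ.cons (Ty.eps hE (hA.sub hρ))⟩

/-! ### Ranks for a finite set of sorts -/

open PTS Exp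

section Rank

variable [LinearOrder S]

open Classical in
/-- distance to the next sort -/
noncomputable def wt (P : PTS S) (F : Finset S) (t : S) : ℕ :=
  if ∃ u ∈ F, P.ax t u then 1 else 2

noncomputable def rk (P : PTS S) (F : Finset S) (s : S) : ℕ := ∑ t ∈ F with t < s, wt P F t

omit [LinearOrder S] in
theorem wt_pos (P : PTS S) (F : Finset S) (t : S) : 1 ≤ wt P F t := by
  unfold wt; split <;> omega

theorem rk_mono (P : PTS S) (F : Finset S) {s t : S} (h : s ≤ t) : rk P F s ≤ rk P F t := by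
  unfold rk
  refine Finset.sum_le_sum_of_subset ?_
  intro u hu
  simp only [Finset.mem_filter] at hu ⊢
  exact ⟨hu.1, hu.2.trans_le h⟩

theorem rk_add (P : PTS S) {F : Finset S} {s t : S} (hs : s ∈ F) (h : s < t) :
    rk P F s + wt P F s ≤ rk P F t := by
  unfold rk
  have h1 : (F.filter (· < s)) ∪ {s} ⊆ F.filter (· < t) := by
    intro u hu
    simp only [Finset.mem_union, Finset.mem_filter, Finset.mem_singleton] at hu ⊢
    rcases hu with ⟨h1, h2⟩ | rfl
    · exact ⟨h1, h2.trans h⟩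
    · exact ⟨hs, h⟩
  have h2 : Disjoint (F.filter (· < s)) {s} := by
    rw [Finset.disjoint_singleton_right]
    simp
  have h3 := Finset.sum_le_sum_of_subset (f := wt P F) h1
  rw [Finset.sum_union h2, Finset.sum_singleton] at h3
  exact h3

theorem rk_le_sum (P : PTS S) (F : Finset S) (s : S) : rk P F s ≤ ∑ t ∈ F, wt P F t :=
  Finset.sum_le_sum_of_subset (Finset.filter_subset _ _)

theorem rk_inj (P : PTS S) {F : Finset S} {s t : S} (hs : s ∈ F) (ht : t ∈ F)
    (h : rk P F s = rk P F t) : s = t := by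
  rcases lt_trichotomy s t with h1 | h1 | h1
  · have := rk_add P hs h1
    have := wt_pos P F s
    omega
  · exact h1
  · have := rk_add P ht h1
    have := wt_pos P F t
    omega

theorem rk_ax (P : PTS S) (hax : ∀ s t, P.ax s t → s ⋖ t) {F : Finset S} {s t : S}
    (hs : s ∈ F) (ht : t ∈ F) (h : P.ax s t) : rk P F t = rk P F s + 1 := by
  have hc := hax s t h
  have hw : wt P F s = 1 := if_pos ⟨t, ht, h⟩
  have h1 : F.filter (· < t) = (F.filter (· < s)) ∪ {s} := by
    ext u
    simp only [Finset.mem_union, Finset.mem_filter, Finset.mem_singleton]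
    constructor
    · rintro ⟨h1, h2⟩
      rcases lt_trichotomy u s with h3 | h3 | h3
      · exact Or.inl ⟨h1, h3⟩
      · exact Or.inr h3
      · exact (hc.2 h3 h2).elim
    · rintro (⟨h1, h2⟩ | rfl)
      · exact ⟨h1, h2.trans hc.1⟩
      · exact ⟨hs, hc.1⟩
  have h2 : Disjoint (F.filter (· < s)) {s} := by
    rw [Finset.disjoint_singleton_right]
    simp
  unfold rk
  rw [h1, Finset.sum_union h2, Finset.sum_singleton, hw]

theorem ax_of_rk (P : PTS S) (hax : ∀ s t, P.ax s t → s ⋖ t) {F : Finset S} {s t : S}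
    (hs : s ∈ F) (h : rk P F t = rk P F s + 1) : P.ax s t := by
  have hlt : s < t := by
    by_contra hcon
    have := rk_mono P F (not_lt.mp hcon)
    omega
  have h1 := rk_add P hs hlt
  have hex : ∃ u ∈ F, P.ax s u := by
    by_contra hcon
    have : wt P F s = 2 := if_neg hcon
    omega
  obtain ⟨u, hu, hsu⟩ := hex
  have hc := hax s u hsu
  rcases lt_trichotomy u t with h3 | h3 | h3
  · have h4 := rk_add P hu h3
    have h5 := rk_add P hs hc.1
    have := wt_pos P F s
    have := wt_pos P F u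
    omega
  · exact h3 ▸ hsu
  · exact (hc.2 hlt h3).elim

/-! ### The internal system of a tiered specification -/

/-- the part of `P` with sorts in `F` -/
noncomputable def sysOf (P : PTS S) (E : Prop)
    (hr : ∀ s₁ s₂ s₃, P.rule s₁ s₂ s₃ → s₃ = s₂ ∧ s₂ ≤ s₁) (F : Finset S) : Sys where
  n := (∑ t ∈ F, wt P F t) + 1
  R := fun i j => ∃ s₁ ∈ F, ∃ s₂ ∈ F, P.rule s₁ s₂ s₂ ∧ rk P F s₁ = i ∧ rk P F s₂ = j
  le := by
    rintro i j ⟨s₁, _, s₂, _, h, rfl, rfl⟩
    exact rk_mono P F (hr _ _ _ h).2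
  lt := by
    rintro i j ⟨s₁, _, s₂, _, h, rfl, rfl⟩
    exact Nat.lt_succ_of_le (rk_le_sum P F s₁)
  E := E

open Classical in
theorem typing_emb (P : PTS S) (E : Prop) (hax : ∀ s t, P.ax s t → s ⋖ t)
    (hr : ∀ s₁ s₂ s₃, P.rule s₁ s₂ s₃ → s₃ = s₂ ∧ s₂ ≤ s₁) {Γ : List (Exp S)}
    {M A : Exp S} (h : Typing P Γ M A) : ∃ F0 : Finset S, ∀ F, F0 ⊆ F →
      WL (sysOf P E hr F) (Γ.map (emb (rk P F))) ∧
      Ty (sysOf P E hr F) (ofList (Γ.map (emb (rk P F)))) (emb (rk P F) M)
        (emb (rk P F) A) := by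
  induction h with
  | @axm s t h =>
    refine ⟨{s, t}, fun F hF => ⟨WL.nil, ?_⟩⟩
    have hs : s ∈ F := hF (by simp)
    have ht : t ∈ F := hF (by simp)
    have h1 := rk_ax P hax hs ht h
    simp only [emb]
    rw [h1]
    refine Ty.ax ?_
    have := rk_le_sum P F t
    change rk P F s + 1 < (∑ t ∈ F, wt P F t) + 1
    omega
  | @var Γ A s _ ih =>
    obtain ⟨F0, h⟩ := ih
    refine ⟨F0, fun F hF => ?_⟩
    obtain ⟨h1, h2⟩ := h F hF
    refine ⟨WL.cons h1 h2, ?_⟩
    rw [emb_shift]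
    exact Ty.var rfl (h2.shift _)
  | @weak Γ M B A s _ _ ih1 ih2 =>
    obtain ⟨F0, h⟩ := ih1
    obtain ⟨F1, h'⟩ := ih2
    refine ⟨F0 ∪ F1, fun F hF => ?_⟩
    obtain ⟨h1, h2⟩ := h F (Finset.union_subset_left hF)
    obtain ⟨h3, h4⟩ := h' F (Finset.union_subset_right hF)
    refine ⟨WL.cons h3 h4, ?_⟩
    rw [emb_shift, emb_shift]
    exact h2.shift _
  | @prod Γ A B s₁ s₂ s₃ _ _ hrule ih1 ih2 =>
    obtain ⟨F0, h⟩ := ih1
    obtain ⟨F1, h'⟩ := ih2
    refine ⟨F0 ∪ F1 ∪ {s₁, s₂}, fun F hF => ?_⟩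
    have hF1 := Finset.union_subset_left hF
    have hF2 := Finset.union_subset_right hF
    obtain ⟨h1, h2⟩ := h F (Finset.union_subset_left hF1)
    obtain ⟨h3, h4⟩ := h' F (Finset.union_subset_right hF1)
    refine ⟨h1, ?_⟩
    obtain ⟨e, hle⟩ := hr _ _ _ hrule
    subst e
    exact Ty.pi ⟨s₁, hF2 (by simp), s₃, hF2 (by simp), hrule, rfl, rfl⟩ h2 h4
  | @abs Γ A B M s _ _ ih1 ih2 =>
    obtain ⟨F0, h⟩ := ih1
    obtain ⟨F1, h'⟩ := ih2
    refine ⟨F0 ∪ F1, fun F hF => ?_⟩
    obtain ⟨h1, h2⟩ := h F (Finset.union_subset_left hF)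
    obtain ⟨h3, h4⟩ := h' F (Finset.union_subset_right hF)
    refine ⟨h3, ?_⟩
    obtain ⟨i, j, rr, hA, hB, _⟩ := h4.gen_pi
    exact Ty.lam rr hA hB h2
  | @app Γ A B M N _ _ ih1 ih2 =>
    obtain ⟨F0, h⟩ := ih1
    obtain ⟨F1, h'⟩ := ih2
    refine ⟨F0 ∪ F1, fun F hF => ?_⟩
    obtain ⟨h1, h2⟩ := h F (Finset.union_subset_left hF)
    obtain ⟨h3, h4⟩ := h' F (Finset.union_subset_right hF)
    refine ⟨h1, ?_⟩
    rw [emb_inst]
    rcases h2.tc h1.wc with ⟨k, e⟩ | ⟨i, hi⟩
    · cases e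
    · obtain ⟨i, j, rr, hA, hB, _⟩ := hi.gen_pi
      exact Ty.app rr hA hB h2 h4
  | @conv Γ M A B s _ _ c ih1 ih2 =>
    obtain ⟨F0, h⟩ := ih1
    obtain ⟨F1, h'⟩ := ih2
    refine ⟨F0 ∪ F1, fun F hF => ?_⟩
    obtain ⟨h1, h2⟩ := h F (Finset.union_subset_left hF)
    obtain ⟨h3, h4⟩ := h' F (Finset.union_subset_right hF)
    refine ⟨h1, ?_⟩
    have c' := emb_betaEq (rk P F) c
    rcases h2.tc h1.wc with ⟨k, e⟩ | ⟨i, hi⟩
    · rw [e] at h2 c'
      have h5 := h4.red h1.wc c'.symm.red_of_srt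
      exact Ty.conv h2 h5 h4 c'
    · exact Ty.conv h2 hi h4 c'

theorem patFree_of (P : PTS S) (E : Prop) (hax : ∀ s t, P.ax s t → s ⋖ t)
    (hr : ∀ s₁ s₂ s₃, P.rule s₁ s₂ s₃ → s₃ = s₂ ∧ s₂ ≤ s₁) (h : ¬ HasUMinus P)
    (F : Finset S) : Core.PatFree (sysOf P E hr F) := by
  rintro m ⟨⟨a, ha, a', ha', h1, h2, h3⟩, ⟨b, hb, c, hc, h4, h5, h6⟩,
    ⟨d, hd, d', hd', h7, h8, h9⟩, ⟨e, he, e', he', h10, h11, h12⟩⟩
  have e1 : a' = a := rk_inj P ha' ha (by omega)
  have e2 : c = a := rk_inj P hc ha (by omega)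
  have e3 : d = b := rk_inj P hd hb (by omega)
  have e4 : d' = b := rk_inj P hd' hb (by omega)
  have e5 : e' = b := rk_inj P he' hb (by omega)
  rw [e1] at h1
  rw [e2] at h4
  rw [e4, e3] at h7
  rw [e5] at h10
  exact h ⟨a, b, e, ax_of_rk P hax ha (by omega), ax_of_rk P hax hb (by omega),
    h1, h4, h7, h10⟩

end Rank

theorem sn_of_not_uminus {P : PTS S} (hP : NondependentTiered P) (h : ¬ HasUMinus P) :
    StronglyNormalizing P := by
  obtain ⟨_, hax, hr⟩ := hP
  have key : ∀ {Γ : List (Exp S)} {M A : Exp S}, Typing P Γ M A → ∃ f : S → ℕ,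
      Core.SN (emb f M) ∧ Core.SN (emb f A) := by
    intro Γ M A hM
    obtain ⟨F, hF⟩ := typing_emb P True hax hr hM
    obtain ⟨h1, h2⟩ := hF F (Finset.Subset.refl F)
    obtain ⟨ρ, hρ⟩ := h1.close trivial
    have hpf := patFree_of P True hax hr h F
    refine ⟨rk P F, Core.sn_open trivial hpf hρ h2, ?_⟩
    rcases h2.tc h1.wc with ⟨k, e⟩ | ⟨i, hi⟩
    · rw [e]; exact Core.SN.srt k
    · exact Core.sn_open trivial hpf hρ hi
  rintro M ⟨Γ, A, hM | hM⟩
  · obtain ⟨f, h1, _⟩ := key hM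
    exact no_seq_of_sn f h1
  · obtain ⟨f, _, h1⟩ := key hM
    exact no_seq_of_sn f h1

/-! ### No closed normal inhabitant of falsity -/

theorem Core.cv_var {x : ℕ} {A : Tm} (h : Core.Cv (Tm.var x) A) : Core.Red A (Tm.var x) := by
  obtain ⟨C, h1, h2⟩ := h
  have : C = Tm.var x := by
    cases Relation.ReflTransGen.cases_head h1 with
    | inl h => exact h.symm
    | inr h =>
      obtain ⟨_, s, _⟩ := h
      cases s
  subst this
  exact h2

theorem no_normal_false {T : Sys} (hE : ¬ T.E) {N : Tm} {a : ℕ} (hn : Core.Nrm N)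
    (h : Ty T Core.nil N (Tm.pi (Tm.srt a) (Tm.var 0))) : False := by
  have hpv : ∀ {A B : Tm} {x : ℕ}, Core.Cv (Tm.pi A B) (Tm.var x) → False := by
    intro A B x c
    have := Core.cv_var c.symm
    obtain ⟨_, _, e, _, _⟩ := Core.red_pi this
    cases e
  have hsv : ∀ {i : ℕ} {x : ℕ}, Core.Cv (Tm.srt i) (Tm.var x) → False := by
    intro i x c
    have := Core.cv_var c.symm
    have := Core.red_srt this
    cases this
  cases N with
  | var x =>
    obtain ⟨A, i, h1, _, _⟩ := h.gen_var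
    cases h1
  | srt i => exact Core.Cv.srt_pi h.gen_srt.2
  | app M N =>
    rcases Core.nrm_app hn h with ⟨A, l, e⟩ | ⟨x, l, e⟩
    · rw [e] at h
      obtain ⟨C', h'⟩ := h.appl_head
      exact hE h'.gen_eps.1
    · rw [e] at h
      obtain ⟨C', h'⟩ := h.appl_head
      obtain ⟨A, i, h1, _, _⟩ := h'.gen_var
      cases h1
  | pi A B =>
    obtain ⟨i, j, _, _, _, c⟩ := h.gen_pi
    exact Core.Cv.srt_pi c
  | eps A => exact hE h.gen_eps.1
  | lam A N =>
    obtain ⟨B, i, j, r, hA, hB, hN, c⟩ := h.gen_lam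
    obtain ⟨c1, c2⟩ := c.pi_inj
    have hnN : Core.Nrm N := fun Q s => hn _ (Core.Step.lamB A s)
    have c0 : Core.Cv (Tm.srt a) (Core.shift A) := by
      have := c1.symm.ren Nat.succ
      exact this
    have hvar : ∀ {x : ℕ} {C : Tm}, Ty T (Core.ext A Core.nil) (Tm.var x) C →
        Core.Cv (Tm.srt a) C := by
      intro x C hx
      obtain ⟨D, i', h1, _, c'⟩ := hx.gen_var
      cases x with
      | zero =>
        simp only [Core.ext_zero, Option.some.injEq] at h1
        subst h1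
        exact c0.trans c'
      | succ n => cases h1
    cases N with
    | var x => exact hsv ((hvar hN).trans c2)
    | srt i => exact hsv (hN.gen_srt.2.trans c2)
    | app M P =>
      rcases Core.nrm_app hnN hN with ⟨A', l, e⟩ | ⟨x, l, e⟩
      · rw [e] at hN
        obtain ⟨C', h'⟩ := hN.appl_head
        exact hE h'.gen_eps.1
      · cases l with
        | nil => cases e
        | cons u l =>
          rw [e, Core.appl_cons] at hN
          obtain ⟨C', h'⟩ := hN.appl_head
          obtain ⟨A', B', i', j', _, _, _, h3, _, _⟩ := h'.gen_app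
          exact Core.Cv.srt_pi (hvar h3)
    | pi A' B' =>
      obtain ⟨i', j', _, _, _, c'⟩ := hN.gen_pi
      exact hsv (c'.trans c2)
    | eps A' => exact hE hN.gen_eps.1
    | lam A' P =>
      obtain ⟨B', i', j', r', _, _, _, c'⟩ := hN.gen_lam
      exact hpv (c'.trans c2)

/-- a closed term of type falsity has no normal form -/
theorem not_wn_of_false {P : PTS S} (hP : NondependentTiered P) {a : S} {M : Exp S}
    (hM : Typing P [] M (pi (sort a) (var 0))) : ¬ WeaklyNormalizing P := by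
  intro hwn
  obtain ⟨_, hax, hr⟩ := hP
  obtain ⟨N, hN, hn⟩ := hwn M ⟨[], _, Or.inl hM⟩
  obtain ⟨F, hF⟩ := typing_emb P False hax hr hM
  obtain ⟨h1, h2⟩ := hF F (Finset.Subset.refl F)
  have h3 := h2.red h1.wc (emb_red (rk P F) hN)
  refine no_normal_false (T := sysOf P False hr F) (fun h => h) (N := emb (rk P F) N) ?_ h3
  intro u hu
  obtain ⟨N', s, _⟩ := step_emb _ hu
  exact hn N' s

/-- strong normalization implies weak normalization -/
theorem wn_of_sn {P : PTS S} (h : StronglyNormalizing P) : WeaklyNormalizing P := by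
  intro M hM
  by_contra hcon
  push Not at hcon
  have hstep : ∀ x : {N : Exp S // Relation.ReflTransGen Step M N},
      ∃ y : {N : Exp S // Relation.ReflTransGen Step M N}, Step x.1 y.1 := by
    rintro ⟨N, hN⟩
    have := hcon N hN
    simp only [Normal, not_forall, not_not] at this
    obtain ⟨N', s⟩ := this
    exact ⟨⟨N', hN.tail s⟩, s⟩
  choose g hg using hstep
  refine h M hM ⟨fun n => (g^[n] ⟨M, Relation.ReflTransGen.refl⟩).1, rfl, fun n => ?_⟩
  change Step (g^[n] _).1 (g^[n + 1] _).1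
  rw [Function.iterate_succ_apply']
  exact hg _

end Vale.Agent.Lib.P340
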