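import Vale.Agent.Lib.P340.Defs
import Mathlib.Data.Fin.VecNotation

/-! The paradox of Hurkens in every pure type system which contains the system `λU⁻`:
a closed term whose type is the product of all propositions. The derivation is found by a verified
type inference function for the system `λU⁻` itself, evaluated by the kernel, and transported
along the inclusion of the sorts. -/

namespace Vale.Agent.Lib.P340

universe u v

open Exp PTS

/-! ### Congruence of beta equality -/

section
variable {S : Type u}

theorem betaEq_map {f : Exp S → Exp S} (h : ∀ M N, Step M N → Step (f M) (f N)) {M N : Exp S}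
    (e : BetaEq M N) : BetaEq (f M) (f N) := by
  induction e with
  | rel x y hxy => exact Relation.EqvGen.rel _ _ (h _ _ hxy)
  | refl x => exact Relation.EqvGen.refl _
  | symm x y _ ih => exact Relation.EqvGen.symm _ _ ih
  | trans x y z _ _ ih1 ih2 => exact Relation.EqvGen.trans _ _ _ ih1 ih2

theorem betaEq_app {M M' N N' : Exp S} (h1 : BetaEq M M') (h2 : BetaEq N N') :
    BetaEq (app M N) (app M' N') :=
  Relation.EqvGen.trans _ _ _
    (betaEq_map (f := fun X => app X N) (fun _ _ h => Step.appL N h) h1)
    (betaEq_map (f := fun X => app M' X) (fun _ _ h => Step.appR M' h) h2)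

theorem betaEq_lam {M M' N N' : Exp S} (h1 : BetaEq M M') (h2 : BetaEq N N') :
    BetaEq (lam M N) (lam M' N') :=
  Relation.EqvGen.trans _ _ _
    (betaEq_map (f := fun X => lam X N) (fun _ _ h => Step.lamD N h) h1)
    (betaEq_map (f := fun X => lam M' X) (fun _ _ h => Step.lamB M' h) h2)

theorem betaEq_pi {M M' N N' : Exp S} (h1 : BetaEq M M') (h2 : BetaEq N N') :
    BetaEq (pi M N) (pi M' N') :=
  Relation.EqvGen.trans _ _ _
    (betaEq_map (f := fun X => pi X N) (fun _ _ h => Step.piD N h) h1)
    (betaEq_map (f := fun X => pi M' X) (fun _ _ h => Step.piB M' h) h2)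

end

/-! ### Morphisms of sorts -/

namespace Exp

variable {S : Type u} {T : Type v}

/-- Replacement of the sorts of an expression. -/
def map (g : S → T) : Exp S → Exp T
  | var n => var n
  | sort s => sort (g s)
  | app M N => app (map g M) (map g N)
  | lam A M => lam (map g A) (map g M)
  | pi A B => pi (map g A) (map g B)

variable (g : S → T)

theorem map_rename (M : Exp S) : ∀ f : ℕ → ℕ, map g (rename f M) = rename f (map g M) := by
  induction M with
  | var n => intro f; rfl
  | sort s => intro f; rfl
  | app M N h1 h2 => intro f; simp only [rename, map, h1, h2]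
  | lam M N h1 h2 => intro f; simp only [rename, map, h1, h2]
  | pi M N h1 h2 => intro f; simp only [rename, map, h1, h2]

theorem map_shift (M : Exp S) : map g (shift M) = shift (map g M) := map_rename g M _

theorem map_ups (f : ℕ → Exp S) : (fun n => map g (ups f n)) = ups (fun n => map g (f n)) := by
  funext n
  cases n with
  | zero => rfl
  | succ n => exact map_shift g (f n)

theorem map_subst (M : Exp S) : ∀ f : ℕ → Exp S,
    map g (subst f M) = subst (fun n => map g (f n)) (map g M) := by
  induction M with
  | var n => intro f; rfl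
  | sort s => intro f; rfl
  | app M N h1 h2 => intro f; simp only [subst, map, h1, h2]
  | lam M N h1 h2 => intro f; simp only [subst, map, h1, h2, map_ups]
  | pi M N h1 h2 => intro f; simp only [subst, map, h1, h2, map_ups]

theorem map_inst (M N : Exp S) : map g (inst M N) = inst (map g M) (map g N) := by
  unfold inst
  rw [map_subst]
  congr 1
  funext n
  cases n <;> rfl

theorem map_step {M N : Exp S} (h : Step M N) : Step (map g M) (map g N) := by
  induction h with
  | beta A M N => rw [map_inst]; exact Step.beta _ _ _
  | appL N _ ih => exact Step.appL _ ih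
  | appR M _ ih => exact Step.appR _ ih
  | lamD M _ ih => exact Step.lamD _ ih
  | lamB A _ ih => exact Step.lamB _ ih
  | piD B _ ih => exact Step.piD _ ih
  | piB A _ ih => exact Step.piB _ ih

theorem map_betaEq {M N : Exp S} (e : BetaEq M N) : BetaEq (map g M) (map g N) := by
  induction e with
  | rel x y hxy => exact Relation.EqvGen.rel _ _ (map_step g hxy)
  | refl x => exact Relation.EqvGen.refl _
  | symm x y _ ih => exact Relation.EqvGen.symm _ _ ih
  | trans x y z _ _ ih1 ih2 => exact Relation.EqvGen.trans _ _ _ ih1 ih2

end Exp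

/-- A morphism of specifications preserves typing. -/
theorem typing_map {S : Type u} {T : Type v} {P : PTS S} {Q : PTS T} (g : S → T)
    (hax : ∀ s t, P.ax s t → Q.ax (g s) (g t))
    (hrule : ∀ s₁ s₂ s₃, P.rule s₁ s₂ s₃ → Q.rule (g s₁) (g s₂) (g s₃))
    {Γ : List (Exp S)} {M A : Exp S} (h : Typing P Γ M A) :
    Typing Q (Γ.map (Exp.map g)) (Exp.map g M) (Exp.map g A) := by
  induction h with
  | axm h => exact Typing.axm (hax _ _ h)
  | var _ ih => rw [map_shift]; exact Typing.var ih
  | weak _ _ ih1 ih2 => rw [map_shift, map_shift]; exact Typing.weak ih1 ih2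
  | prod _ _ hr ih1 ih2 => exact Typing.prod ih1 ih2 (hrule _ _ _ hr)
  | abs _ _ ih1 ih2 => exact Typing.abs ih1 ih2
  | app _ _ ih1 ih2 => rw [map_inst]; exact Typing.app ih1 ih2
  | conv _ _ e ih1 ih2 => exact Typing.conv ih1 ih2 (map_betaEq g e)

/-! ### The concrete system -/

/-- The system `λU⁻`, with sorts `0, 1, 2`. -/
def UM : PTS (Fin 3) where
  ax s t := (s = 0 ∧ t = 1) ∨ (s = 1 ∧ t = 2)
  rule s₁ s₂ s₃ := s₃ = s₂ ∧
    ((s₁ = 0 ∧ s₂ = 0) ∨ (s₁ = 1 ∧ s₂ = 0) ∨ (s₁ = 1 ∧ s₂ = 1) ∨ (s₁ = 2 ∧ s₂ = 1))

/-- Boolean equality of sorts. -/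
def seq (a b : Fin 3) : Bool := Nat.beq a.1 b.1

theorem seq_sound {a b : Fin 3} (h : seq a b = true) : a = b :=
  Fin.ext (Nat.eq_of_beq_eq_true h)

/-- Boolean equality of expressions. -/
def eqb : Exp (Fin 3) → Exp (Fin 3) → Bool
  | .var n, .var m => Nat.beq n m
  | .sort s, .sort t => seq s t
  | .app M N, .app M' N' => eqb M M' && eqb N N'
  | .lam M N, .lam M' N' => eqb M M' && eqb N N'
  | .pi M N, .pi M' N' => eqb M M' && eqb N N'
  | _, _ => false

theorem eqb_sound (M : Exp (Fin 3)) : ∀ {N : Exp (Fin 3)}, eqb M N = true → M = N := by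
  induction M with
  | var n =>
    intro N h
    cases N with
    | var m => rw [Nat.eq_of_beq_eq_true h]
    | sort => exact absurd h (by simp [eqb])
    | app => exact absurd h (by simp [eqb])
    | lam => exact absurd h (by simp [eqb])
    | pi => exact absurd h (by simp [eqb])
  | sort s =>
    intro N h
    cases N with
    | var m => exact absurd h (by simp [eqb])
    | sort t => rw [seq_sound h]
    | app => exact absurd h (by simp [eqb])
    | lam => exact absurd h (by simp [eqb])
    | pi => exact absurd h (by simp [eqb])
  | app M N h1 h2 =>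
    intro L h
    cases L with
    | app M' N' =>
      have h' := (Bool.and_eq_true _ _).mp h
      rw [h1 h'.1, h2 h'.2]
    | var => exact absurd h (by simp [eqb])
    | sort => exact absurd h (by simp [eqb])
    | lam => exact absurd h (by simp [eqb])
    | pi => exact absurd h (by simp [eqb])
  | lam M N h1 h2 =>
    intro L h
    cases L with
    | lam M' N' =>
      have h' := (Bool.and_eq_true _ _).mp h
      rw [h1 h'.1, h2 h'.2]
    | var => exact absurd h (by simp [eqb])
    | sort => exact absurd h (by simp [eqb])
    | app => exact absurd h (by simp [eqb])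
    | pi => exact absurd h (by simp [eqb])
  | pi M N h1 h2 =>
    intro L h
    cases L with
    | pi M' N' =>
      have h' := (Bool.and_eq_true _ _).mp h
      rw [h1 h'.1, h2 h'.2]
    | var => exact absurd h (by simp [eqb])
    | sort => exact absurd h (by simp [eqb])
    | app => exact absurd h (by simp [eqb])
    | lam => exact absurd h (by simp [eqb])

/-- Contraction of a redex whose function part is given in normal form. -/
def contr (k : Exp (Fin 3) → Exp (Fin 3)) (N : Exp (Fin 3)) : Exp (Fin 3) → Exp (Fin 3)
  | .lam _ B => k (inst B N)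
  | M => .app M N

/-- Fuelled normalization. -/
def nf : ℕ → Exp (Fin 3) → Exp (Fin 3)
  | 0, M => M
  | _ + 1, .var k => .var k
  | _ + 1, .sort s => .sort s
  | n + 1, .lam A M => .lam (nf n A) (nf n M)
  | n + 1, .pi A B => .pi (nf n A) (nf n B)
  | n + 1, .app M N => contr (nf n) (nf n N) (nf n M)

theorem nf_sound : ∀ (n : ℕ) (M : Exp (Fin 3)), BetaEq M (nf n M) := by
  intro n
  induction n with
  | zero => intro M; exact Relation.EqvGen.refl _
  | succ n ih =>
    intro M
    cases M with
    | var k => exact Relation.EqvGen.refl _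
    | sort s => exact Relation.EqvGen.refl _
    | lam A M => exact betaEq_lam (ih A) (ih M)
    | pi A B => exact betaEq_pi (ih A) (ih B)
    | app M N =>
      refine Relation.EqvGen.trans _ _ _ (betaEq_app (ih M) (ih N)) ?_
      change BetaEq (app (nf n M) (nf n N)) (contr (nf n) (nf n N) (nf n M))
      cases nf n M with
      | lam A B =>
        exact Relation.EqvGen.trans _ _ _ (Relation.EqvGen.rel _ _ (Step.beta A B (nf n N)))
          (ih _)
      | var => exact Relation.EqvGen.refl _
      | sort => exact Relation.EqvGen.refl _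
      | app => exact Relation.EqvGen.refl _
      | pi => exact Relation.EqvGen.refl _

/-- The sort of a type. -/
def asSort : Option (Exp (Fin 3)) → Option (Fin 3)
  | some (.sort s) => some s
  | _ => none

theorem asSort_sound {o : Option (Exp (Fin 3))} {s : Fin 3} (h : asSort o = some s) :
    o = some (.sort s) := by
  unfold asSort at h
  split at h
  · rw [Option.some.inj h]
  · exact absurd h (by simp)

/-- Reduction of a type to a product. -/
def asPi : Exp (Fin 3) → Option (Exp (Fin 3) × Exp (Fin 3))
  | .pi A B => some (A, B)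
  | _ => none

theorem asPi_sound {T : Exp (Fin 3)} {A B : Exp (Fin 3)} (h : asPi T = some (A, B)) :
    T = .pi A B := by
  unfold asPi at h
  split at h
  · have := Option.some.inj h
    rw [Prod.mk.injEq] at this
    rw [this.1, this.2]
  · exact absurd h (by simp)

/-- The product rules as a function. -/
def ruleb (s₁ s₂ : Fin 3) : Bool :=
  (seq s₁ 0 && seq s₂ 0) || ((seq s₁ 1 && seq s₂ 0) || ((seq s₁ 1 && seq s₂ 1) ||
    (seq s₁ 2 && seq s₂ 1)))

theorem ruleb_sound {s₁ s₂ : Fin 3} (h : ruleb s₁ s₂ = true) : UM.rule s₁ s₂ s₂ := by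
  refine ⟨rfl, ?_⟩
  unfold ruleb at h
  simp only [Bool.or_eq_true, Bool.and_eq_true] at h
  rcases h with h | h | h | h
  · exact Or.inl ⟨seq_sound h.1, seq_sound h.2⟩
  · exact Or.inr (Or.inl ⟨seq_sound h.1, seq_sound h.2⟩)
  · exact Or.inr (Or.inr (Or.inl ⟨seq_sound h.1, seq_sound h.2⟩))
  · exact Or.inr (Or.inr (Or.inr ⟨seq_sound h.1, seq_sound h.2⟩))

/-- The type of a variable. -/
def lookup : List (Exp (Fin 3)) → ℕ → Option (Exp (Fin 3))
  | [], _ => none
  | A :: _, 0 => some (shift A)
  | _ :: Γ, n + 1 => (lookup Γ n).map shift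

/-- The type of a sort. -/
def sortTy (s : Fin 3) : Option (Exp (Fin 3)) :=
  if seq s 0 then some (.sort 1) else if seq s 1 then some (.sort 2) else none

/-- The type of a product. -/
def piTy : Option (Fin 3) → Option (Fin 3) → Option (Exp (Fin 3))
  | some s₁, some s₂ => if ruleb s₁ s₂ then some (.sort s₂) else none
  | _, _ => none

/-- Fuelled type inference. -/
def infer : ℕ → List (Exp (Fin 3)) → Exp (Fin 3) → Option (Exp (Fin 3))
  | 0, _, _ => none
  | _ + 1, Γ, .var k => lookup Γ k
  | _ + 1, _, .sort s => sortTy s
  | n + 1, Γ, .pi A B =>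
    match asSort (infer n Γ A) with
    | none => none
    | some s₁ => piTy (some s₁) (asSort (infer n (A :: Γ) B))
  | n + 1, Γ, .lam A M =>
    match asSort (infer n Γ A) with
    | none => none
    | some s₁ =>
      match infer n (A :: Γ) M with
      | none => none
      | some B =>
        match piTy (some s₁) (asSort (infer n (A :: Γ) B)) with
        | none => none
        | some _ => some (.pi A B)
  | n + 1, Γ, .app M N =>
    match infer n Γ M with
    | none => none
    | some T =>
      match asPi T with
      | some (A, B) =>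
        match infer n Γ N with
        | none => none
        | some A' =>
          if eqb A' A || (eqb (nf n A') (nf n A) && (asSort (infer n Γ A)).isSome) then
            some (inst B N)
          else none
      | none =>
        match asPi (nf n T) with
        | some (A, B) =>
          if (asSort (infer n Γ (.pi A B))).isSome then
            match infer n Γ N with
            | none => none
            | some A' =>
              if eqb A' A || (eqb (nf n A') (nf n A) && (asSort (infer n Γ A)).isSome) then
                some (inst B N)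
              else none
          else none
        | none => none

/-- Well formed contexts. -/
def WF : List (Exp (Fin 3)) → Prop
  | [] => True
  | A :: Γ => WF Γ ∧ ∃ s, Typing UM Γ A (.sort s)

theorem sortTy_sound {s : Fin 3} {A : Exp (Fin 3)} (h : sortTy s = some A)
    {Γ : List (Exp (Fin 3))} (hΓ : WF Γ) : Typing UM Γ (.sort s) A := by
  unfold sortTy at h
  have key : ∀ (s t : Fin 3), UM.ax s t → ∀ {Γ : List (Exp (Fin 3))}, WF Γ →
      Typing UM Γ (.sort s) (.sort t) := by
    intro s t hst Γ
    induction Γ with
    | nil => intro _; exact Typing.axm hst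
    | cons B Γ ih =>
      intro hΓ
      obtain ⟨s', hs'⟩ := hΓ.2
      exact Typing.weak (ih hΓ.1) hs'
  split at h
  · rename_i h0
    rw [← Option.some.inj h]
    exact key _ _ (Or.inl ⟨seq_sound h0, rfl⟩) hΓ
  · split at h
    · rename_i h0
      rw [← Option.some.inj h]
      exact key _ _ (Or.inr ⟨seq_sound h0, rfl⟩) hΓ
    · exact absurd h (by simp)

theorem lookup_sound : ∀ {Γ : List (Exp (Fin 3))} {k : ℕ} {A : Exp (Fin 3)}, WF Γ →
    lookup Γ k = some A → Typing UM Γ (.var k) A := by
  intro Γ
  induction Γ with
  | nil => intro k A _ h; exact absurd h (by simp [lookup])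
  | cons B Γ ih =>
    intro k A hΓ h
    obtain ⟨s, hs⟩ := hΓ.2
    cases k with
    | zero =>
      have h' : some (shift B) = some A := h
      rw [← Option.some.inj h']
      exact Typing.var hs
    | succ k =>
      have h' : (lookup Γ k).map shift = some A := h
      obtain ⟨C, hC, rfl⟩ := Option.map_eq_some_iff.mp h'
      exact Typing.weak (ih hΓ.1 hC) hs

theorem piTy_sound {o₁ o₂ : Option (Fin 3)} {C : Exp (Fin 3)} (h : piTy o₁ o₂ = some C) :
    ∃ s₁ s₂, o₁ = some s₁ ∧ o₂ = some s₂ ∧ UM.rule s₁ s₂ s₂ ∧ C = .sort s₂ := by
  unfold piTy at h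
  split at h
  · rename_i s₁ s₂
    split at h
    · rename_i hr
      exact ⟨s₁, s₂, rfl, rfl, ruleb_sound hr, (Option.some.inj h).symm⟩
    · exact absurd h (by simp)
  · exact absurd h (by simp)

theorem infer_sound : ∀ (n : ℕ) {Γ : List (Exp (Fin 3))} {M A : Exp (Fin 3)}, WF Γ →
    infer n Γ M = some A → Typing UM Γ M A := by
  intro n
  induction n with
  | zero => intro Γ M A _ h; exact absurd h (by simp [infer])
  | succ n ih =>
    intro Γ M C hΓ h
    have conv_dom : ∀ {A B N A' D : Exp (Fin 3)}, infer n Γ N = some A' →
        (if eqb A' A || (eqb (nf n A') (nf n A) && (asSort (infer n Γ A)).isSome) then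
          some (inst B N) else none) = some D → Typing UM Γ N A ∧ D = inst B N := by
      intro A B N A' D hN hD
      split at hD
      · rename_i hc
        refine ⟨?_, (Option.some.inj hD).symm⟩
        rcases (Bool.or_eq_true _ _).mp hc with hc | hc
        · rw [← eqb_sound A' hc]; exact ih hΓ hN
        · have hc' := (Bool.and_eq_true _ _).mp hc
          obtain ⟨s, hs⟩ := Option.isSome_iff_exists.mp hc'.2
          have hA := ih hΓ (asSort_sound hs)
          refine Typing.conv (ih hΓ hN) hA ?_
          refine Relation.EqvGen.trans _ _ _ (nf_sound n A') ?_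
          rw [eqb_sound _ hc'.1]
          exact Relation.EqvGen.symm _ _ (nf_sound n A)
      · exact absurd hD (by simp)
    cases M with
    | var k => exact lookup_sound hΓ h
    | sort s => exact sortTy_sound h hΓ
    | pi A B =>
      simp only [infer] at h
      split at h
      · exact absurd h (by simp)
      · rename_i s₁ hs₁
        obtain ⟨s₁', s₂, e1, e2, hr, rfl⟩ := piTy_sound h
        have hA := ih hΓ (asSort_sound hs₁)
        have hΓ' : WF (A :: Γ) := ⟨hΓ, s₁, hA⟩
        have hB := ih hΓ' (asSort_sound e2)
        rw [← Option.some.inj e1] at hr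
        exact Typing.prod hA hB hr
    | lam A M =>
      simp only [infer] at h
      split at h
      · exact absurd h (by simp)
      · rename_i s₁ hs₁
        have hA := ih hΓ (asSort_sound hs₁)
        have hΓ' : WF (A :: Γ) := ⟨hΓ, s₁, hA⟩
        split at h
        · exact absurd h (by simp)
        · rename_i B hB
          have hM := ih hΓ' hB
          split at h
          · exact absurd h (by simp)
          · rename_i D hD
            obtain ⟨s₁', s₂, e1, e2, hr, -⟩ := piTy_sound hD
            have hB' := ih hΓ' (asSort_sound e2)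
            rw [← Option.some.inj e1] at hr
            rw [← Option.some.inj h]
            exact Typing.abs hM (Typing.prod hA hB' hr)
    | app M N =>
      simp only [infer] at h
      split at h
      · exact absurd h (by simp)
      · rename_i T hT
        have hM := ih hΓ hT
        split at h
        · rename_i A B hP
          have hMp : Typing UM Γ M (.pi A B) := by rw [← asPi_sound hP]; exact hM
          split at h
          · exact absurd h (by simp)
          · rename_i A' hN
            obtain ⟨h1, rfl⟩ := conv_dom hN h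
            exact Typing.app hMp h1
        · split at h
          · rename_i A B hP
            split at h
            · rename_i hs
              obtain ⟨s, hs⟩ := Option.isSome_iff_exists.mp hs
              have hMp : Typing UM Γ M (.pi A B) := by
                refine Typing.conv hM (ih hΓ (asSort_sound hs)) ?_
                rw [← asPi_sound hP]
                exact nf_sound n T
              split at h
              · exact absurd h (by simp)
              · rename_i A' hN
                obtain ⟨h1, rfl⟩ := conv_dom hN h
                exact Typing.app hMp h1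
            · exact absurd h (by simp)
          · exact absurd h (by simp)

/-! ### The term -/

namespace Hurkens

/-- Nondependent products. -/
def arr (A B : Exp (Fin 3)) : Exp (Fin 3) := .pi A (shift B)

/-- Predicates. -/
def pow (A : Exp (Fin 3)) : Exp (Fin 3) := .pi A (.sort 0)

/-- Falsity. -/
def bot : Exp (Fin 3) := .pi (.sort 0) (.var 0)

/-- The paradoxical universe `Π X : □, ((℘℘X → X) → ℘℘X)`. -/
def U : Exp (Fin 3) :=
  .pi (.sort 1) (arr (arr (pow (pow (.var 0))) (.var 0)) (pow (pow (.var 0))))

/-- `λ X : □, λ f : (℘℘X → X), λ p : ℘X, t (λ x : U, p (f (x X f)))`. -/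
def tau (t : Exp (Fin 3)) : Exp (Fin 3) :=
  .lam (.sort 1) (.lam (arr (pow (pow (.var 0))) (.var 0)) (.lam (pow (.var 1))
    (.app (shift (shift (shift t)))
      (.lam U (.app (.var 1) (.app (.var 2) (.app (.app (.var 0) (.var 3)) (.var 2))))))))

/-- `s U (λ t : ℘℘U, tau t)`. -/
def sigma (s : Exp (Fin 3)) : Exp (Fin 3) :=
  .app (.app s U) (.lam (pow (pow U)) (tau (.var 0)))

/-- `λ y : U, (Π p : ℘U, sigma y p → p (tau (sigma y))) → ⊥`. -/
def Delta : Exp (Fin 3) :=
  .lam U (arr (.pi (pow U) (arr (.app (sigma (.var 1)) (.var 0))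
    (.app (.var 0) (tau (sigma (.var 1)))))) bot)

/-- `Π x : U, sigma x p → p x`. -/
def ind : Exp (Fin 3) :=
  .pi U (arr (.app (sigma (.var 0)) (.var 1)) (.app (.var 1) (.var 0)))

/-- `tau (λ p : ℘U, Π x : U, sigma x p → p x)`. -/
def Omega : Exp (Fin 3) := tau (.lam (pow U) ind)

/-- `λ x : U, λ h₂ : sigma x Delta, λ h₃ : (Π p : ℘U, sigma x p → p (tau (sigma x))),
h₃ Delta h₂ (λ p : ℘U, h₃ (λ y : U, p (tau (sigma y))))`. -/
def arg₁ : Exp (Fin 3) :=
  .lam U (.lam (.app (sigma (.var 0)) Delta)
    (.lam (.pi (pow U) (arr (.app (sigma (.var 2)) (.var 0))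
      (.app (.var 0) (tau (sigma (.var 2))))))
      (.app (.app (.app (.var 0) Delta) (.var 1))
        (.lam (pow U) (.app (.var 1) (.lam U (.app (.var 1) (tau (sigma (.var 0))))))))))

/-- `λ p : ℘U, h₀ (λ y : U, p (tau (sigma y)))`. -/
def arg₂ : Exp (Fin 3) :=
  .lam (pow U) (.app (.var 1) (.lam U (.app (.var 1) (tau (sigma (.var 0))))))

/-- `λ p : ℘U, λ h₁ : (Π x : U, sigma x p → p x), h₁ Omega (λ x : U, h₁ (tau (sigma x)))`. -/
def arg₀ : Exp (Fin 3) :=
  .lam (pow U) (.lam ind
    (.app (.app (.var 0) Omega) (.lam U (.app (.var 1) (tau (sigma (.var 0)))))))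

/-- The paradoxical term. -/
def term : Exp (Fin 3) :=
  .app (.lam (.pi (pow U) (arr ind (.app (.var 0) Omega)))
    (.app (.app (.app (.var 0) Delta) arg₁) arg₂)) arg₀

/-- The check that the inferred type is falsity. -/
def ok : Bool :=
  match infer 40 [] term with
  | some A => eqb A bot
  | none => false

theorem ok_eq : ok = true := by decide +kernel

theorem typing_term : Typing UM [] term bot := by
  have h := ok_eq
  unfold ok at h
  split at h
  · rename_i A hA
    rw [← eqb_sound A h]
    exact infer_sound 40 trivial hA
  · exact absurd h (by simp)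

end Hurkens

/-- Every pure type system containing `λU⁻` is inconsistent: falsity is inhabited. -/
theorem uminus_inconsistent {S : Type u} (P : PTS S) {a b c : S} (h1 : P.ax a b) (h2 : P.ax b c)
    (r1 : P.rule a a a) (r2 : P.rule b a a) (r3 : P.rule b b b) (r4 : P.rule c b b) :
    ∃ M, PTS.Typing P [] M (Exp.pi (Exp.sort a) (Exp.var 0)) := by
  refine ⟨Exp.map ![a, b, c] Hurkens.term, ?_⟩
  have h := typing_map (P := UM) (Q := P) ![a, b, c] ?_ ?_ Hurkens.typing_term
  · exact h
  · rintro s t (⟨rfl, rfl⟩ | ⟨rfl, rfl⟩)
    · exact h1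
    · exact h2
  · rintro s₁ s₂ s₃ ⟨rfl, h | h | h | h⟩
    · obtain ⟨rfl, rfl⟩ := h; exact r1
    · obtain ⟨rfl, rfl⟩ := h; exact r2
    · obtain ⟨rfl, rfl⟩ := h; exact r3
    · obtain ⟨rfl, rfl⟩ := h; exact r4

end Vale.Agent.Lib.P340
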