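import Vale.Agent.Lib.P340.Arith
import Vale.Agent.Lib.P340.Emb
import Vale.Agent.Lib.P340.Hurkens

/-! Translation between the two presentations of pure type systems. -/

namespace Vale.Agent.Lib.P340.Arith

universe u

variable {S : Type u}

open Term

/-- translation of terms -/
def tr : Term S → Exp S
  | var i => Exp.var i
  | srt s => Exp.sort s
  | app M N => Exp.app (tr M) (tr N)
  | lam A M => Exp.lam (tr A) (tr M)
  | pi A B => Exp.pi (tr A) (tr B)

/-- inverse translation -/
def rt : Exp S → Term S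
  | Exp.var i => var i
  | Exp.sort s => srt s
  | Exp.app M N => app (rt M) (rt N)
  | Exp.lam A M => lam (rt A) (rt M)
  | Exp.pi A B => pi (rt A) (rt B)

theorem rt_tr (M : Term S) : rt (tr M) = M := by
  induction M <;> simp_all [tr, rt]

theorem tr_rt (M : Exp S) : tr (rt M) = M := by
  induction M <;> simp_all [tr, rt]

theorem tr_inj {M N : Term S} (h : tr M = tr N) : M = N := by
  rw [← rt_tr M, h, rt_tr]

/-- raising at level `k` -/
def rk (k : ℕ) (i : ℕ) : ℕ := if i < k then i else i + 1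

theorem upr_rk (k : ℕ) : Exp.upr (rk k) = rk (k + 1) := by
  funext i
  cases i with
  | zero => simp [Exp.upr, rk]
  | succ i =>
    simp only [Exp.upr, rk]
    split_ifs <;> omega

theorem tr_lift (M : Term S) : ∀ k, tr (lift k M) = Exp.rename (rk k) (tr M) := by
  induction M with
  | var i =>
    intro k
    simp only [lift, tr, Exp.rename, rk]
    split_ifs <;> rfl
  | srt s => intro k; rfl
  | app M N ih1 ih2 => intro k; simp only [lift, tr, Exp.rename, ih1, ih2]
  | lam A M ih1 ih2 => intro k; simp only [lift, tr, Exp.rename, ih1, ih2, upr_rk]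
  | pi A B ih1 ih2 => intro k; simp only [lift, tr, Exp.rename, ih1, ih2, upr_rk]

theorem rk_zero : rk 0 = Nat.succ := by
  funext i
  simp [rk]

theorem tr_lift_zero (M : Term S) : tr (lift 0 M) = Exp.shift (tr M) := by
  rw [tr_lift, rk_zero]
  rfl

/-- substitution at level `k` -/
def sk (k : ℕ) (N : Exp S) (i : ℕ) : Exp S :=
  if i < k then Exp.var i else if i = k then N else Exp.var (i - 1)

theorem ups_sk (k : ℕ) (N : Exp S) : Exp.ups (sk k N) = sk (k + 1) (Exp.shift N) := by
  funext i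
  cases i with
  | zero => simp [Exp.ups, sk]
  | succ i =>
    by_cases h1 : i < k
    · simp [Exp.ups, sk, h1, Exp.shift, Exp.rename]
    · by_cases h2 : i = k
      · subst h2
        simp [Exp.ups, sk]
      · obtain ⟨j, rfl⟩ : ∃ j, i = j + 1 := ⟨i - 1, by omega⟩
        simp [Exp.ups, sk, h1, h2, Exp.shift, Exp.rename]

theorem tr_put (M : Term S) : ∀ (k : ℕ) (N : Term S),
    tr (put k N M) = Exp.subst (sk k (tr N)) (tr M) := by
  induction M with
  | var i =>
    intro k N
    simp only [put, tr, Exp.subst, sk]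
    split_ifs <;> rfl
  | srt s => intro k N; rfl
  | app M P ih1 ih2 => intro k N; simp only [put, tr, Exp.subst, ih1, ih2]
  | lam A M ih1 ih2 =>
    intro k N
    simp only [put, tr, Exp.subst, ih1, ih2, ups_sk, tr_lift_zero]
  | pi A B ih1 ih2 =>
    intro k N
    simp only [put, tr, Exp.subst, ih1, ih2, ups_sk, tr_lift_zero]

theorem tr_put_zero (M N : Term S) : tr (put 0 N M) = Exp.inst (tr M) (tr N) := by
  rw [tr_put, Exp.inst]
  congr 1
  funext i
  cases i with
  | zero => simp [sk, Exp.single]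
  | succ i => simp [sk, Exp.single]

theorem rt_shift (A : Exp S) : rt (Exp.shift A) = lift 0 (rt A) := by
  apply tr_inj
  rw [tr_rt, tr_lift_zero, tr_rt]

theorem rt_inst (B N : Exp S) : rt (Exp.inst B N) = put 0 (rt N) (rt B) := by
  apply tr_inj
  rw [tr_rt, tr_put_zero, tr_rt, tr_rt]

theorem step_fill (C : Hole S) {M N : Term S} (h : Exp.Step (tr M) (tr N)) :
    Exp.Step (tr (C.fill M)) (tr (C.fill N)) := by
  induction C with
  | here => exact h
  | appL C P ih => exact Exp.Step.appL _ ih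
  | appR P C ih => exact Exp.Step.appR _ ih
  | lamL C P ih => exact Exp.Step.lamD _ ih
  | lamR P C ih => exact Exp.Step.lamB _ ih
  | piL C P ih => exact Exp.Step.piD _ ih
  | piR P C ih => exact Exp.Step.piB _ ih

theorem step_of_beta {M N : Term S} (h : Beta M N) : Exp.Step (tr M) (tr N) := by
  obtain ⟨C, A, P, Q, rfl, rfl⟩ := h
  refine step_fill C ?_
  rw [tr_put_zero]
  exact Exp.Step.beta _ _ _

theorem beta_of_step {M N : Exp S} (h : Exp.Step M N) : Beta (rt M) (rt N) := by
  induction h with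
  | beta A M N => exact ⟨.here, rt A, rt M, rt N, rfl, rt_inst M N⟩
  | appL N _ ih =>
    obtain ⟨C, A, P, Q, h1, h2⟩ := ih
    exact ⟨.appL C (rt N), A, P, Q, congrArg (fun x => app x (rt N)) h1,
      congrArg (fun x => app x (rt N)) h2⟩
  | appR M _ ih =>
    obtain ⟨C, A, P, Q, h1, h2⟩ := ih
    exact ⟨.appR (rt M) C, A, P, Q, congrArg (fun x => app (rt M) x) h1,
      congrArg (fun x => app (rt M) x) h2⟩
  | lamD M _ ih =>
    obtain ⟨C, A, P, Q, h1, h2⟩ := ih
    exact ⟨.lamL C (rt M), A, P, Q, congrArg (fun x => lam x (rt M)) h1,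
      congrArg (fun x => lam x (rt M)) h2⟩
  | lamB A _ ih =>
    obtain ⟨C, A', P, Q, h1, h2⟩ := ih
    exact ⟨.lamR (rt A) C, A', P, Q, congrArg (fun x => lam (rt A) x) h1,
      congrArg (fun x => lam (rt A) x) h2⟩
  | piD B _ ih =>
    obtain ⟨C, A, P, Q, h1, h2⟩ := ih
    exact ⟨.piL C (rt B), A, P, Q, congrArg (fun x => pi x (rt B)) h1,
      congrArg (fun x => pi x (rt B)) h2⟩
  | piB A _ ih =>
    obtain ⟨C, A', P, Q, h1, h2⟩ := ih
    exact ⟨.piR (rt A) C, A', P, Q, congrArg (fun x => pi (rt A) x) h1,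
      congrArg (fun x => pi (rt A) x) h2⟩

theorem eqv_tr {M N : Term S} (h : Relation.EqvGen Beta M N) : Exp.BetaEq (tr M) (tr N) := by
  induction h with
  | rel x y h => exact .rel _ _ (step_of_beta h)
  | refl x => exact .refl _
  | symm x y _ ih => exact .symm _ _ ih
  | trans x y z _ _ ih1 ih2 => exact .trans _ _ _ ih1 ih2

theorem eqv_rt {M N : Exp S} (h : Exp.BetaEq M N) : Relation.EqvGen Beta (rt M) (rt N) := by
  induction h with
  | rel x y h => exact .rel _ _ (beta_of_step h)
  | refl x => exact .refl _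
  | symm x y _ ih => exact .symm _ _ ih
  | trans x y z _ _ ih1 ih2 => exact .trans _ _ _ ih1 ih2

/-- the specification in the other presentation -/
def Spec.toPTS (P : Spec S) : PTS S where
  ax s t := (s, t) ∈ P.axioms
  rule s₁ s₂ s₃ := (s₁, s₂, s₃) ∈ P.rules

theorem typing_of_judge {P : Spec S} {Γ : List (Term S)} {M A : Term S} (h : P.Judge Γ M A) :
    P.toPTS.Typing (Γ.map tr) (tr M) (tr A) := by
  induction h with
  | axiom_ h => exact .axm h
  | variable_ _ ih =>
    rw [tr_lift_zero]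
    exact .var ih
  | weakening _ _ ih1 ih2 =>
    rw [tr_lift_zero, tr_lift_zero]
    exact .weak ih1 ih2
  | product _ _ h ih1 ih2 => exact .prod ih1 ih2 h
  | abstraction _ _ ih1 ih2 => exact .abs ih1 ih2
  | application _ _ ih1 ih2 =>
    rw [tr_put_zero]
    exact .app ih1 ih2
  | conversion _ _ h ih1 ih2 => exact .conv ih1 ih2 (eqv_tr h)

theorem judge_of_typing {P : Spec S} {Γ : List (Exp S)} {M A : Exp S}
    (h : P.toPTS.Typing Γ M A) : P.Judge (Γ.map rt) (rt M) (rt A) := by
  induction h with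
  | axm h => exact .axiom_ h
  | var _ ih =>
    rw [rt_shift]
    exact .variable_ ih
  | weak _ _ ih1 ih2 =>
    rw [rt_shift, rt_shift]
    exact .weakening ih1 ih2
  | prod _ _ h ih1 ih2 => exact .product ih1 ih2 h
  | abs _ _ ih1 ih2 => exact .abstraction ih1 ih2
  | app _ _ ih1 ih2 =>
    rw [rt_inst]
    exact .application ih1 ih2
  | conv _ _ h ih1 ih2 => exact .conversion ih1 ih2 (eqv_rt h)

theorem legal_tr {P : Spec S} {M : Term S} (h : P.IsLegal M) : P.toPTS.Legal (tr M) := by
  obtain ⟨Γ, ⟨A, h⟩ | ⟨N, h⟩⟩ := h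
  · exact ⟨_, _, Or.inl (typing_of_judge h)⟩
  · exact ⟨_, _, Or.inr (typing_of_judge h)⟩

theorem legal_rt {P : Spec S} {M : Exp S} (h : P.toPTS.Legal M) : P.IsLegal (rt M) := by
  obtain ⟨Γ, A, h | h⟩ := h
  · exact ⟨_, Or.inl ⟨_, judge_of_typing h⟩⟩
  · exact ⟨_, Or.inr ⟨_, judge_of_typing h⟩⟩

theorem weakNorm_iff (P : Spec S) : P.WeakNorm ↔ P.toPTS.WeaklyNormalizing := by
  constructor
  · intro h M hM
    obtain ⟨N, h1, h2⟩ := h _ (legal_rt hM)
    refine ⟨tr N, ?_, ?_⟩
    · have : Relation.ReflTransGen Exp.Step (tr (rt M)) (tr N) :=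
        Relation.ReflTransGen.lift tr (fun _ _ h => step_of_beta h) _ _ h1
      rwa [tr_rt] at this
    · intro N' hN'
      apply h2
      have := beta_of_step hN'
      rw [rt_tr] at this
      exact ⟨_, this⟩
  · intro h M hM
    obtain ⟨N, h1, h2⟩ := h _ (legal_tr hM)
    refine ⟨rt N, ?_, ?_⟩
    · have : Relation.ReflTransGen Beta (rt (tr M)) (rt N) :=
        Relation.ReflTransGen.lift rt (fun _ _ h => beta_of_step h) _ _ h1
      rwa [rt_tr] at this
    · rintro ⟨N', hN'⟩
      have := step_of_beta hN'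
      rw [tr_rt] at this
      exact h2 _ this

theorem strongNorm_iff (P : Spec S) : P.StrongNorm ↔ P.toPTS.StronglyNormalizing := by
  constructor
  · rintro h M hM ⟨f, hf0, hf⟩
    exact h ⟨fun i => rt (f i), by simpa only [hf0] using legal_rt hM, fun i => beta_of_step (hf i)⟩
  · rintro h ⟨f, hf0, hf⟩
    exact h _ (legal_tr hf0) ⟨fun i => tr (f i), rfl, fun i => step_of_beta (hf i)⟩

end Vale.Agent.Lib.P340.Arith
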