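import Mathlib.Logic.Relation
import Mathlib.Data.Set.Basic
import Mathlib.Order.WellFounded

/-! Internal calculus over natural number sorts, with a dummy inhabitant `eps A` of every type.
Raw substitution calculus. -/

namespace Vale.Agent.Lib.P340.Core

inductive Tm : Type
  | var (x : ℕ)
  | srt (i : ℕ)
  | app (M N : Tm)
  | lam (A M : Tm)
  | pi (A B : Tm)
  | eps (A : Tm)

open Tm

/-- cons of a value and an infinite sequence -/
def scons {α : Type} (a : α) (f : ℕ → α) : ℕ → α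
  | 0 => a
  | n + 1 => f n

@[simp] theorem scons_zero {α : Type} (a : α) (f : ℕ → α) : scons a f 0 = a := rfl
@[simp] theorem scons_succ {α : Type} (a : α) (f : ℕ → α) (n : ℕ) :
    scons a f (n + 1) = f n := rfl

/-- extension of a renaming -/
def upr (ξ : ℕ → ℕ) : ℕ → ℕ := scons 0 (fun n => ξ n + 1)

def ren : (ℕ → ℕ) → Tm → Tm
  | ξ, var x => var (ξ x)
  | _, srt i => srt i
  | ξ, app M N => app (ren ξ M) (ren ξ N)
  | ξ, lam A M => lam (ren ξ A) (ren (upr ξ) M)
  | ξ, pi A B => pi (ren ξ A) (ren (upr ξ) B)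
  | ξ, eps A => eps (ren ξ A)

/-- weakening -/
def shift (M : Tm) : Tm := ren Nat.succ M

/-- extension of a substitution -/
def up (σ : ℕ → Tm) : ℕ → Tm := scons (var 0) (fun n => shift (σ n))

def sub : (ℕ → Tm) → Tm → Tm
  | σ, var x => σ x
  | _, srt i => srt i
  | σ, app M N => app (sub σ M) (sub σ N)
  | σ, lam A M => lam (sub σ A) (sub (up σ) M)
  | σ, pi A B => pi (sub σ A) (sub (up σ) B)
  | σ, eps A => eps (sub σ A)

@[simp] theorem sub_var' (σ : ℕ → Tm) (x : ℕ) : sub σ (var x) = σ x := rfl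
@[simp] theorem sub_srt (σ : ℕ → Tm) (i : ℕ) : sub σ (srt i) = srt i := rfl
@[simp] theorem sub_app (σ : ℕ → Tm) (M N : Tm) :
    sub σ (app M N) = app (sub σ M) (sub σ N) := rfl
@[simp] theorem sub_lam (σ : ℕ → Tm) (A M : Tm) :
    sub σ (lam A M) = lam (sub σ A) (sub (up σ) M) := rfl
@[simp] theorem sub_pi (σ : ℕ → Tm) (A B : Tm) :
    sub σ (pi A B) = pi (sub σ A) (sub (up σ) B) := rfl
@[simp] theorem sub_eps (σ : ℕ → Tm) (A : Tm) : sub σ (eps A) = eps (sub σ A) := rfl

/-- instantiation of variable `0` -/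
def inst (M N : Tm) : Tm := sub (scons N var) M

theorem upr_comp (ξ ζ : ℕ → ℕ) : (fun x => upr ξ (upr ζ x)) = upr (fun x => ξ (ζ x)) := by
  funext x; cases x <;> rfl

theorem ren_ren (ξ ζ : ℕ → ℕ) (M : Tm) : ren ξ (ren ζ M) = ren (fun x => ξ (ζ x)) M := by
  induction M generalizing ξ ζ with
  | var x => rfl
  | srt i => rfl
  | app M N ihM ihN => simp [ren, ihM, ihN]
  | lam A M ihA ihM => simp [ren, ihA, ihM, upr_comp]
  | pi A M ihA ihM => simp [ren, ihA, ihM, upr_comp]
  | eps A ihA => simp [ren, ihA]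

theorem up_var_comp (ξ : ℕ → ℕ) : (fun x => var (upr ξ x)) = up (fun x => var (ξ x)) := by
  funext x; cases x <;> rfl

theorem ren_eq_sub (ξ : ℕ → ℕ) (M : Tm) : ren ξ M = sub (fun x => var (ξ x)) M := by
  induction M generalizing ξ with
  | var x => rfl
  | srt i => rfl
  | app M N ihM ihN => simp [ren, ihM, ihN]
  | lam A M ihA ihM => simp [ren, ihA, ihM, up_var_comp]
  | pi A M ihA ihM => simp [ren, ihA, ihM, up_var_comp]
  | eps A ihA => simp [ren, ihA]

theorem up_var : up var = var := by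
  funext x; cases x <;> rfl

theorem sub_var (M : Tm) : sub var M = M := by
  induction M with
  | var x => rfl
  | srt i => rfl
  | app M N ihM ihN => simp [ihM, ihN]
  | lam A M ihA ihM => simp [ihA, ihM, up_var]
  | pi A M ihA ihM => simp [ihA, ihM, up_var]
  | eps A ihA => simp [ihA]

theorem up_ren_comp (σ : ℕ → Tm) (ξ : ℕ → ℕ) :
    (fun x => up σ (upr ξ x)) = up (fun x => σ (ξ x)) := by
  funext x; cases x <;> rfl

theorem sub_ren (σ : ℕ → Tm) (ξ : ℕ → ℕ) (M : Tm) :
    sub σ (ren ξ M) = sub (fun x => σ (ξ x)) M := by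
  induction M generalizing σ ξ with
  | var x => rfl
  | srt i => rfl
  | app M N ihM ihN => simp [ren, ihM, ihN]
  | lam A M ihA ihM => simp [ren, ihA, ihM, up_ren_comp]
  | pi A M ihA ihM => simp [ren, ihA, ihM, up_ren_comp]
  | eps A ihA => simp [ren, ihA]

theorem ren_up_comp (ξ : ℕ → ℕ) (σ : ℕ → Tm) :
    (fun x => ren (upr ξ) (up σ x)) = up (fun x => ren ξ (σ x)) := by
  funext x
  cases x with
  | zero => rfl
  | succ n =>
    simp only [up, scons_succ, shift, ren_ren]
    rfl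

theorem ren_sub (ξ : ℕ → ℕ) (σ : ℕ → Tm) (M : Tm) :
    ren ξ (sub σ M) = sub (fun x => ren ξ (σ x)) M := by
  induction M generalizing σ ξ with
  | var x => rfl
  | srt i => rfl
  | app M N ihM ihN => simp [ren, ihM, ihN]
  | lam A M ihA ihM => simp [ren, ihA, ihM, ren_up_comp]
  | pi A M ihA ihM => simp [ren, ihA, ihM, ren_up_comp]
  | eps A ihA => simp [ren, ihA]

theorem sub_up_comp (τ σ : ℕ → Tm) :
    (fun x => sub (up τ) (up σ x)) = up (fun x => sub τ (σ x)) := by
  funext x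
  cases x with
  | zero => rfl
  | succ n =>
    simp only [up, scons_succ, shift, sub_ren, ren_sub]

theorem sub_sub (τ σ : ℕ → Tm) (M : Tm) :
    sub τ (sub σ M) = sub (fun x => sub τ (σ x)) M := by
  induction M generalizing σ τ with
  | var x => rfl
  | srt i => rfl
  | app M N ihM ihN => simp [ihM, ihN]
  | lam A M ihA ihM => simp [ihA, ihM, sub_up_comp]
  | pi A M ihA ihM => simp [ihA, ihM, sub_up_comp]
  | eps A ihA => simp [ihA]

theorem sub_shift (σ : ℕ → Tm) (M : Tm) : sub σ (shift M) = sub (fun x => σ (x + 1)) M :=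
  sub_ren _ _ _

theorem sub_scons_shift (N : Tm) (σ : ℕ → Tm) (M : Tm) :
    sub (scons N σ) (shift M) = sub σ M := by
  rw [sub_shift]; rfl

theorem shift_sub (σ : ℕ → Tm) (M : Tm) : shift (sub σ M) = sub (up σ) (shift M) := by
  rw [sub_shift, shift, ren_sub]; rfl

theorem inst_shift (M N : Tm) : inst (shift M) N = M := by
  rw [inst, sub_scons_shift, sub_var]

theorem inst_up (σ : ℕ → Tm) (M N : Tm) : inst (sub (up σ) M) N = sub (scons N σ) M := by
  rw [inst, sub_sub]
  congr 1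
  funext x
  cases x with
  | zero => rfl
  | succ n => exact inst_shift (σ n) N

theorem sub_inst (σ : ℕ → Tm) (M N : Tm) :
    sub σ (inst M N) = sub (scons (sub σ N) σ) M := by
  rw [inst, sub_sub]
  congr 1
  funext x
  cases x <;> rfl

theorem sub_inst' (σ : ℕ → Tm) (M N : Tm) :
    sub σ (inst M N) = inst (sub (up σ) M) (sub σ N) := by
  rw [sub_inst, inst_up]

theorem ren_inst (ξ : ℕ → ℕ) (M N : Tm) :
    ren ξ (inst M N) = inst (ren (upr ξ) M) (ren ξ N) := by
  rw [ren_eq_sub, sub_inst', ← up_var_comp, ← ren_eq_sub, ← ren_eq_sub]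

theorem upr_succ_comp (ξ : ℕ → ℕ) (M : Tm) :
    ren (upr ξ) (shift M) = shift (ren ξ M) := by
  rw [shift, shift, ren_ren, ren_ren]; rfl

/-! ### Reduction -/

inductive Step : Tm → Tm → Prop
  | beta (A M N : Tm) : Step (app (lam A M) N) (inst M N)
  | appL {M M' : Tm} (N : Tm) : Step M M' → Step (app M N) (app M' N)
  | appR (M : Tm) {N N' : Tm} : Step N N' → Step (app M N) (app M N')
  | lamD {A A' : Tm} (M : Tm) : Step A A' → Step (lam A M) (lam A' M)
  | lamB (A : Tm) {M M' : Tm} : Step M M' → Step (lam A M) (lam A M')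
  | piD {A A' : Tm} (B : Tm) : Step A A' → Step (pi A B) (pi A' B)
  | piB (A : Tm) {B B' : Tm} : Step B B' → Step (pi A B) (pi A B')
  | epsD {A A' : Tm} : Step A A' → Step (eps A) (eps A')

def Red : Tm → Tm → Prop := Relation.ReflTransGen Step

/-- joinability -/
def Cv (A B : Tm) : Prop := ∃ C, Red A C ∧ Red B C

def Nrm (M : Tm) : Prop := ∀ N, ¬ Step M N

/-- strong normalization -/
def SN (M : Tm) : Prop := Acc (fun a b => Step b a) M

theorem Red.refl (M : Tm) : Red M M := Relation.ReflTransGen.refl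
theorem Red.trans {M N P : Tm} (h : Red M N) (h' : Red N P) : Red M P :=
  Relation.ReflTransGen.trans h h'
theorem Red.single {M N : Tm} (h : Step M N) : Red M N := Relation.ReflTransGen.single h

theorem Red.map {f : Tm → Tm} (hf : ∀ M N, Step M N → Step (f M) (f N)) {M N : Tm}
    (h : Red M N) : Red (f M) (f N) := by
  induction h with
  | refl => exact Red.refl _
  | tail _ h ih => exact ih.trans (Red.single (hf _ _ h))

theorem Red.app {M M' N N' : Tm} (h : Red M M') (h' : Red N N') :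
    Red (app M N) (app M' N') :=
  (Red.map (f := fun M => Tm.app M N) (fun _ _ h => Step.appL N h) h).trans
    (Red.map (f := fun N => Tm.app M' N) (fun _ _ h => Step.appR M' h) h')

theorem Red.lam {M M' N N' : Tm} (h : Red M M') (h' : Red N N') :
    Red (lam M N) (lam M' N') :=
  (Red.map (f := fun M => Tm.lam M N) (fun _ _ h => Step.lamD N h) h).trans
    (Red.map (f := fun N => Tm.lam M' N) (fun _ _ h => Step.lamB M' h) h')

theorem Red.pi {M M' N N' : Tm} (h : Red M M') (h' : Red N N') :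
    Red (pi M N) (pi M' N') :=
  (Red.map (f := fun M => Tm.pi M N) (fun _ _ h => Step.piD N h) h).trans
    (Red.map (f := fun N => Tm.pi M' N) (fun _ _ h => Step.piB M' h) h')

theorem Red.eps {M M' : Tm} (h : Red M M') : Red (eps M) (eps M') :=
  Red.map (f := Tm.eps) (fun _ _ h => Step.epsD h) h

theorem Step.ren (ξ : ℕ → ℕ) {M N : Tm} (h : Step M N) : Step (ren ξ M) (ren ξ N) := by
  induction h generalizing ξ with
  | beta A M N =>
    rw [ren_inst]; exact Step.beta _ _ _
  | appL N _ ih => exact Step.appL _ (ih ξ)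
  | appR M _ ih => exact Step.appR _ (ih ξ)
  | lamD M _ ih => exact Step.lamD _ (ih ξ)
  | lamB A _ ih => exact Step.lamB _ (ih (upr ξ))
  | piD M _ ih => exact Step.piD _ (ih ξ)
  | piB A _ ih => exact Step.piB _ (ih (upr ξ))
  | epsD _ ih => exact Step.epsD (ih ξ)

theorem Step.sub (σ : ℕ → Tm) {M N : Tm} (h : Step M N) : Step (sub σ M) (sub σ N) := by
  induction h generalizing σ with
  | beta A M N =>
    rw [sub_inst']; exact Step.beta _ _ _
  | appL N _ ih => exact Step.appL _ (ih σ)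
  | appR M _ ih => exact Step.appR _ (ih σ)
  | lamD M _ ih => exact Step.lamD _ (ih σ)
  | lamB A _ ih => exact Step.lamB _ (ih (up σ))
  | piD M _ ih => exact Step.piD _ (ih σ)
  | piB A _ ih => exact Step.piB _ (ih (up σ))
  | epsD _ ih => exact Step.epsD (ih σ)

theorem Red.ren (ξ : ℕ → ℕ) {M N : Tm} (h : Red M N) : Red (ren ξ M) (ren ξ N) :=
  Red.map (fun _ _ h => Step.ren ξ h) h

theorem Red.sub (σ : ℕ → Tm) {M N : Tm} (h : Red M N) : Red (sub σ M) (sub σ N) :=
  Red.map (fun _ _ h => Step.sub σ h) h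

theorem Red.sub_congr {σ τ : ℕ → Tm} (h : ∀ x, Red (σ x) (τ x)) (M : Tm) :
    Red (Core.sub σ M) (Core.sub τ M) := by
  induction M generalizing σ τ with
  | var x => exact h x
  | srt i => exact Red.refl _
  | app M N ihM ihN => exact Red.app (ihM h) (ihN h)
  | lam A M ihA ihM =>
    refine Red.lam (ihA h) (ihM ?_)
    intro x
    cases x with
    | zero => exact Red.refl _
    | succ n => exact Red.ren _ (h n)
  | pi A M ihA ihM =>
    refine Red.pi (ihA h) (ihM ?_)
    intro x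
    cases x with
    | zero => exact Red.refl _
    | succ n => exact Red.ren _ (h n)
  | eps A ihA => exact Red.eps (ihA h)

theorem Red.inst {M M' N N' : Tm} (h : Red M M') (h' : Red N N') :
    Red (inst M N) (inst M' N') := by
  refine (Red.sub _ h).trans (Red.sub_congr ?_ M')
  intro x
  cases x with
  | zero => exact h'
  | succ n => exact Red.refl _

/-! ### Parallel reduction and confluence -/

inductive Par : Tm → Tm → Prop
  | var (x : ℕ) : Par (var x) (var x)
  | srt (i : ℕ) : Par (srt i) (srt i)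
  | app {M M' N N' : Tm} : Par M M' → Par N N' → Par (app M N) (app M' N')
  | lam {M M' N N' : Tm} : Par M M' → Par N N' → Par (lam M N) (lam M' N')
  | pi {M M' N N' : Tm} : Par M M' → Par N N' → Par (pi M N) (pi M' N')
  | eps {M M' : Tm} : Par M M' → Par (eps M) (eps M')
  | beta {A M M' N N' : Tm} : Par M M' → Par N N' → Par (app (lam A M) N) (inst M' N')

theorem Par.refl (M : Tm) : Par M M := by
  induction M with
  | var x => exact Par.var x
  | srt i => exact Par.srt i
  | app M N ihM ihN => exact Par.app ihM ihN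
  | lam M N ihM ihN => exact Par.lam ihM ihN
  | pi M N ihM ihN => exact Par.pi ihM ihN
  | eps M ih => exact Par.eps ih

theorem Par.of_step {M N : Tm} (h : Step M N) : Par M N := by
  induction h with
  | beta A M N => exact Par.beta (Par.refl _) (Par.refl _)
  | appL N _ ih => exact Par.app ih (Par.refl _)
  | appR M _ ih => exact Par.app (Par.refl _) ih
  | lamD M _ ih => exact Par.lam ih (Par.refl _)
  | lamB A _ ih => exact Par.lam (Par.refl _) ih
  | piD M _ ih => exact Par.pi ih (Par.refl _)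
  | piB A _ ih => exact Par.pi (Par.refl _) ih
  | epsD _ ih => exact Par.eps ih

theorem Par.red {M N : Tm} (h : Par M N) : Red M N := by
  induction h with
  | var x => exact Red.refl _
  | srt i => exact Red.refl _
  | app _ _ ih1 ih2 => exact Red.app ih1 ih2
  | lam _ _ ih1 ih2 => exact Red.lam ih1 ih2
  | pi _ _ ih1 ih2 => exact Red.pi ih1 ih2
  | eps _ ih1 => exact Red.eps ih1
  | beta _ _ ih1 ih2 =>
    exact (Red.app (Red.lam (Red.refl _) ih1) ih2).trans (Red.single (Step.beta _ _ _))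

theorem Par.ren (ξ : ℕ → ℕ) {M N : Tm} (h : Par M N) : Par (ren ξ M) (ren ξ N) := by
  induction h generalizing ξ with
  | var x => exact Par.refl _
  | srt i => exact Par.refl _
  | app _ _ ih1 ih2 => exact Par.app (ih1 ξ) (ih2 ξ)
  | lam _ _ ih1 ih2 => exact Par.lam (ih1 ξ) (ih2 _)
  | pi _ _ ih1 ih2 => exact Par.pi (ih1 ξ) (ih2 _)
  | eps _ ih1 => exact Par.eps (ih1 ξ)
  | beta _ _ ih1 ih2 =>
    rw [ren_inst]
    exact Par.beta (ih1 _) (ih2 _)

theorem Par.up {σ τ : ℕ → Tm} (h : ∀ x, Par (σ x) (τ x)) (x : ℕ) :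
    Par (up σ x) (up τ x) := by
  cases x with
  | zero => exact Par.refl _
  | succ n => exact Par.ren _ (h n)

theorem Par.sub {σ τ : ℕ → Tm} {M N : Tm} (h : Par M N) (hs : ∀ x, Par (σ x) (τ x)) :
    Par (sub σ M) (sub τ N) := by
  induction h generalizing σ τ with
  | var x => exact hs x
  | srt i => exact Par.refl _
  | app _ _ ih1 ih2 => exact Par.app (ih1 hs) (ih2 hs)
  | lam _ _ ih1 ih2 => exact Par.lam (ih1 hs) (ih2 (Par.up hs))
  | pi _ _ ih1 ih2 => exact Par.pi (ih1 hs) (ih2 (Par.up hs))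
  | eps _ ih1 => exact Par.eps (ih1 hs)
  | beta _ _ ih1 ih2 =>
    rw [sub_inst']
    exact Par.beta (ih1 (Par.up hs)) (ih2 hs)

theorem Par.inst {M M' N N' : Tm} (h : Par M M') (h' : Par N N') :
    Par (inst M N) (inst M' N') := by
  refine Par.sub h ?_
  intro x
  cases x with
  | zero => exact h'
  | succ n => exact Par.refl _

/-- complete development -/
def cd : Tm → Tm
  | var x => var x
  | srt i => srt i
  | lam A M => lam (cd A) (cd M)
  | pi A B => pi (cd A) (cd B)
  | eps A => eps (cd A)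
  | app (lam _ M) N => inst (cd M) (cd N)
  | app M N => app (cd M) (cd N)

theorem Par.cd {M N : Tm} (h : Par M N) : Par N (cd M) := by
  induction h with
  | var x => exact Par.refl _
  | srt i => exact Par.refl _
  | lam _ _ ih1 ih2 => exact Par.lam ih1 ih2
  | pi _ _ ih1 ih2 => exact Par.pi ih1 ih2
  | eps _ ih1 => exact Par.eps ih1
  | @beta A M M' N N' h1 h2 ih1 ih2 =>
    simp only [Core.cd]
    exact Par.inst ih1 ih2
  | @app M M' N N' h1 h2 ih1 ih2 =>
    cases M with
    | lam A P =>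
      simp only [Core.cd] at ih1 ⊢
      cases h1 with
      | lam ha hp =>
        cases ih1 with
        | lam ha' hp' => exact Par.beta hp' ih2
    | var x => exact Par.app ih1 ih2
    | srt x => exact Par.app ih1 ih2
    | app P Q => exact Par.app ih1 ih2
    | pi P Q => exact Par.app ih1 ih2
    | eps P => exact Par.app ih1 ih2

theorem par_red {M N : Tm} (h : Relation.ReflTransGen Par M N) : Red M N := by
  induction h with
  | refl => exact Red.refl _
  | tail _ h ih => exact ih.trans h.red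

theorem red_par {M N : Tm} (h : Red M N) : Relation.ReflTransGen Par M N := by
  induction h with
  | refl => exact Relation.ReflTransGen.refl
  | tail _ h ih => exact ih.tail (Par.of_step h)

theorem confluence {M A B : Tm} (h1 : Red M A) (h2 : Red M B) : Cv A B := by
  have := Relation.church_rosser (r := Par) (a := M) (b := A) (c := B)
    (fun a b c hb hc => ⟨cd a, Relation.ReflGen.single hb.cd,
      Relation.ReflTransGen.single hc.cd⟩) (red_par h1) (red_par h2)
  obtain ⟨C, hC1, hC2⟩ := this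
  exact ⟨C, par_red hC1, par_red hC2⟩

theorem Cv.refl (A : Tm) : Cv A A := ⟨A, Red.refl _, Red.refl _⟩
theorem Cv.symm {A B : Tm} (h : Cv A B) : Cv B A := by
  obtain ⟨C, h1, h2⟩ := h; exact ⟨C, h2, h1⟩
theorem Cv.trans {A B C : Tm} (h : Cv A B) (h' : Cv B C) : Cv A C := by
  obtain ⟨D, h1, h2⟩ := h
  obtain ⟨E, h3, h4⟩ := h'
  obtain ⟨F, h5, h6⟩ := confluence h2 h3
  exact ⟨F, h1.trans h5, h4.trans h6⟩
theorem Cv.of_red {A B : Tm} (h : Red A B) : Cv A B := ⟨B, h, Red.refl _⟩
theorem Cv.of_step {A B : Tm} (h : Step A B) : Cv A B := Cv.of_red (Red.single h)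

theorem Cv.sub (σ : ℕ → Tm) {A B : Tm} (h : Cv A B) : Cv (sub σ A) (sub σ B) := by
  obtain ⟨C, h1, h2⟩ := h; exact ⟨_, Red.sub σ h1, Red.sub σ h2⟩
theorem Cv.ren (ξ : ℕ → ℕ) {A B : Tm} (h : Cv A B) : Cv (ren ξ A) (ren ξ B) := by
  obtain ⟨C, h1, h2⟩ := h; exact ⟨_, Red.ren ξ h1, Red.ren ξ h2⟩
theorem Cv.inst {A B M N : Tm} (h : Cv A B) (h' : Cv M N) : Cv (inst A M) (inst B N) := by
  obtain ⟨C, h1, h2⟩ := h
  obtain ⟨D, h3, h4⟩ := h'
  exact ⟨_, Red.inst h1 h3, Red.inst h2 h4⟩
theorem Cv.app {A B M N : Tm} (h : Cv A B) (h' : Cv M N) : Cv (app A M) (app B N) := by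
  obtain ⟨C, h1, h2⟩ := h
  obtain ⟨D, h3, h4⟩ := h'
  exact ⟨_, Red.app h1 h3, Red.app h2 h4⟩
theorem Cv.pi {A B M N : Tm} (h : Cv A B) (h' : Cv M N) : Cv (pi A M) (pi B N) := by
  obtain ⟨C, h1, h2⟩ := h
  obtain ⟨D, h3, h4⟩ := h'
  exact ⟨_, Red.pi h1 h3, Red.pi h2 h4⟩
theorem Cv.lam {A B M N : Tm} (h : Cv A B) (h' : Cv M N) : Cv (lam A M) (lam B N) := by
  obtain ⟨C, h1, h2⟩ := h
  obtain ⟨D, h3, h4⟩ := h'
  exact ⟨_, Red.lam h1 h3, Red.lam h2 h4⟩
theorem Cv.eps {A B : Tm} (h : Cv A B) : Cv (eps A) (eps B) := by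
  obtain ⟨C, h1, h2⟩ := h
  exact ⟨_, Red.eps h1, Red.eps h2⟩
theorem Cv.sub_congr {σ τ : ℕ → Tm} (h : ∀ x, Cv (σ x) (τ x)) (M : Tm) :
    Cv (Core.sub σ M) (Core.sub τ M) := by
  choose f h1 h2 using h
  exact ⟨Core.sub f M, Red.sub_congr h1 M, Red.sub_congr h2 M⟩

/-! ### Shapes of reducts -/

theorem red_srt {i : ℕ} {M : Tm} (h : Red (srt i) M) : M = srt i := by
  induction h with
  | refl => rfl
  | tail _ h ih => subst ih; cases h

theorem red_pi {A B M : Tm} (h : Red (pi A B) M) :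
    ∃ A' B', M = pi A' B' ∧ Red A A' ∧ Red B B' := by
  induction h with
  | refl => exact ⟨A, B, rfl, Red.refl _, Red.refl _⟩
  | tail _ h ih =>
    obtain ⟨A', B', rfl, h1, h2⟩ := ih
    cases h with
    | piD _ h => exact ⟨_, _, rfl, h1.trans (Red.single h), h2⟩
    | piB _ h => exact ⟨_, _, rfl, h1, h2.trans (Red.single h)⟩

theorem red_eps {A M : Tm} (h : Red (eps A) M) : ∃ A', M = eps A' ∧ Red A A' := by
  induction h with
  | refl => exact ⟨A, rfl, Red.refl _⟩
  | tail _ h ih =>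
    obtain ⟨A', rfl, h1⟩ := ih
    cases h with
    | epsD h => exact ⟨_, rfl, h1.trans (Red.single h)⟩

theorem Cv.srt_inj {i j : ℕ} (h : Cv (srt i) (srt j)) : i = j := by
  obtain ⟨C, h1, h2⟩ := h
  have := red_srt h1
  have h3 := red_srt h2
  rw [this] at h3
  exact Tm.srt.inj h3

theorem Cv.pi_inj {A B A' B' : Tm} (h : Cv (Tm.pi A B) (Tm.pi A' B')) : Cv A A' ∧ Cv B B' := by
  obtain ⟨C, h1, h2⟩ := h
  obtain ⟨A1, B1, e1, h3, h4⟩ := red_pi h1
  obtain ⟨A2, B2, e2, h5, h6⟩ := red_pi h2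
  rw [e1] at e2
  injection e2 with e3 e4
  subst e3 e4
  exact ⟨⟨_, h3, h5⟩, ⟨_, h4, h6⟩⟩

theorem Cv.srt_pi {i : ℕ} {A B : Tm} (h : Cv (Tm.srt i) (Tm.pi A B)) : False := by
  obtain ⟨C, h1, h2⟩ := h
  obtain ⟨A1, B1, e1, _, _⟩ := red_pi h2
  have := red_srt h1
  rw [this] at e1
  cases e1

theorem Cv.red_of_srt {A : Tm} {i : ℕ} (h : Cv A (srt i)) : Red A (srt i) := by
  obtain ⟨C, h1, h2⟩ := h
  have := red_srt h2
  subst this
  exact h1

end Vale.Agent.Lib.P340.Core
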