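import Mathlib.Logic.Relation
import Mathlib.Order.Cover

/-! Pure type systems over an arbitrary type of sorts, in de Bruijn style:
expressions, beta reduction, the seven typing rules, legality, weak and strong
normalization, and the class of nondependent tiered systems. -/

namespace Vale.Agent.Lib.P340

universe u v

/-- Expressions over the type `S` of sorts, with de Bruijn indices for variables. -/
inductive Exp (S : Type u) : Type u
  | var (n : ℕ) : Exp S
  | sort (s : S) : Exp S
  | app (M N : Exp S) : Exp S
  | lam (A M : Exp S) : Exp S
  | pi (A B : Exp S) : Exp S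

namespace Exp

variable {S : Type u}

/-- Extension of a renaming under a binder. -/
def upr (f : ℕ → ℕ) : ℕ → ℕ
  | 0 => 0
  | n + 1 => f n + 1

/-- Renaming of the free variables. -/
def rename : (ℕ → ℕ) → Exp S → Exp S
  | f, var n => var (f n)
  | _, sort s => sort s
  | f, app M N => app (rename f M) (rename f N)
  | f, lam A M => lam (rename f A) (rename (upr f) M)
  | f, pi A B => pi (rename f A) (rename (upr f) B)

/-- Weakening: every free variable is raised by one. -/
def shift (M : Exp S) : Exp S := rename Nat.succ M

/-- Extension of a substitution under a binder. -/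
def ups (f : ℕ → Exp S) : ℕ → Exp S
  | 0 => var 0
  | n + 1 => shift (f n)

/-- Simultaneous capture avoiding substitution. -/
def subst : (ℕ → Exp S) → Exp S → Exp S
  | f, var n => f n
  | _, sort s => sort s
  | f, app M N => app (subst f M) (subst f N)
  | f, lam A M => lam (subst f A) (subst (ups f) M)
  | f, pi A B => pi (subst f A) (subst (ups f) B)

/-- The substitution sending variable `0` to `N` and variable `n + 1` to variable `n`. -/
def single (N : Exp S) : ℕ → Exp S
  | 0 => N
  | n + 1 => var n

/-- `M[x := N]` where `x` is variable `0` of `M`. -/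
def inst (M N : Exp S) : Exp S := subst (single N) M

/-- One step of beta reduction, in any subexpression. -/
inductive Step : Exp S → Exp S → Prop
  | beta (A M N : Exp S) : Step (app (lam A M) N) (inst M N)
  | appL {M M' : Exp S} (N : Exp S) : Step M M' → Step (app M N) (app M' N)
  | appR (M : Exp S) {N N' : Exp S} : Step N N' → Step (app M N) (app M N')
  | lamD {A A' : Exp S} (M : Exp S) : Step A A' → Step (lam A M) (lam A' M)
  | lamB (A : Exp S) {M M' : Exp S} : Step M M' → Step (lam A M) (lam A M')
  | piD {A A' : Exp S} (B : Exp S) : Step A A' → Step (pi A B) (pi A' B)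
  | piB (A : Exp S) {B B' : Exp S} : Step B B' → Step (pi A B) (pi A B')

/-- Beta equality: the equivalence relation generated by `Step`. -/
def BetaEq (M N : Exp S) : Prop := Relation.EqvGen Step M N

/-- `M` is beta normal. -/
def Normal (M : Exp S) : Prop := ∀ N, ¬ Step M N

end Exp

/-- A specification of a pure type system: axioms and rules over the sorts `S`. -/
structure PTS (S : Type u) where
  /-- the axioms -/
  ax : S → S → Prop
  /-- the product rules -/
  rule : S → S → S → Prop

namespace PTS

variable {S : Type u}

open Exp

/-- The typing judgment `Γ ⊢ M : A`; the head of the list `Γ` is the last declaration. -/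
inductive Typing (P : PTS S) : List (Exp S) → Exp S → Exp S → Prop
  | axm {s t : S} : P.ax s t → Typing P [] (sort s) (sort t)
  | var {Γ : List (Exp S)} {A : Exp S} {s : S} :
      Typing P Γ A (sort s) → Typing P (A :: Γ) (var 0) (shift A)
  | weak {Γ : List (Exp S)} {M B A : Exp S} {s : S} :
      Typing P Γ M B → Typing P Γ A (sort s) → Typing P (A :: Γ) (shift M) (shift B)
  | prod {Γ : List (Exp S)} {A B : Exp S} {s₁ s₂ s₃ : S} :
      Typing P Γ A (sort s₁) → Typing P (A :: Γ) B (sort s₂) → P.rule s₁ s₂ s₃ →
      Typing P Γ (pi A B) (sort s₃)
  | abs {Γ : List (Exp S)} {A B M : Exp S} {s : S} :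
      Typing P (A :: Γ) M B → Typing P Γ (pi A B) (sort s) → Typing P Γ (lam A M) (pi A B)
  | app {Γ : List (Exp S)} {A B M N : Exp S} :
      Typing P Γ M (pi A B) → Typing P Γ N A → Typing P Γ (app M N) (inst B N)
  | conv {Γ : List (Exp S)} {M A B : Exp S} {s : S} :
      Typing P Γ M A → Typing P Γ B (sort s) → BetaEq A B → Typing P Γ M B

/-- `M` is legal: the subject or the type of a derivable judgment, in any context. -/
def Legal (P : PTS S) (M : Exp S) : Prop := ∃ Γ A, Typing P Γ M A ∨ Typing P Γ A M

/-- Every legal expression reduces to a normal form. -/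
def WeaklyNormalizing (P : PTS S) : Prop :=
  ∀ M, Legal P M → ∃ N, Relation.ReflTransGen Step M N ∧ Normal N

/-- No legal expression starts an infinite reduction sequence. -/
def StronglyNormalizing (P : PTS S) : Prop :=
  ∀ M, Legal P M → ¬ ∃ f : ℕ → Exp S, f 0 = M ∧ ∀ n, Step (f n) (f (n + 1))

/-- `P` is a nondependent tiered system: for some linear order of its sorts, every axiom goes
from a sort to its immediate successor, every product has the sort of its codomain, and the sort
of a domain is never below the sort of the codomain. The sorts may form one axiom chain, finite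
or infinite, or several axiom chains one above the other. -/
def NondependentTiered (P : PTS S) : Prop :=
  ∃ _ : LinearOrder S, (∀ s t, P.ax s t → s ⋖ t) ∧
    ∀ s₁ s₂ s₃, P.rule s₁ s₂ s₃ → s₃ = s₂ ∧ s₂ ≤ s₁

/-- `P` contains the axioms and the rules of the inconsistent system `λU⁻` on three of its
sorts. -/
def HasUMinus (P : PTS S) : Prop :=
  ∃ a b c, P.ax a b ∧ P.ax b c ∧ P.rule a a a ∧ P.rule b a a ∧ P.rule b b b ∧ P.rule c b b

end PTS

end Vale.Agent.Lib.P340
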