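import Vale.Agent.Lib.P340.Typ

/-! Levels of typed terms, and the fact that a term depends only on variables of at least its
own level. -/

namespace Vale.Agent.Lib.P340.Core

open Tm

def lev : (ℕ → ℕ) → Tm → ℕ
  | Δ, var x => Δ x
  | _, srt i => i + 2
  | Δ, app M _ => lev Δ M
  | Δ, lam A M => lev (scons (lev Δ A - 1) Δ) M
  | Δ, pi A B => lev (scons (lev Δ A - 1) Δ) B
  | Δ, eps A => lev Δ A - 1

/-- `Δ` is a correct assignment of levels to the declarations of `Γ` -/
def LC (Γ : Ctx) (Δ : ℕ → ℕ) : Prop := ∀ x A, Γ x = some A → lev Δ A = Δ x + 1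

theorem lev_ren (Δ : ℕ → ℕ) (ξ : ℕ → ℕ) (M : Tm) :
    lev Δ (ren ξ M) = lev (fun x => Δ (ξ x)) M := by
  induction M generalizing Δ ξ with
  | var x => rfl
  | srt i => rfl
  | app M N ihM ihN => exact ihM _ _
  | lam A M ihA ihM =>
    simp only [lev, ren, ihA, ihM]
    congr 1
    funext x
    cases x <;> rfl
  | pi A M ihA ihM =>
    simp only [lev, ren, ihA, ihM]
    congr 1
    funext x
    cases x <;> rfl
  | eps A ihA => simp only [lev, ren, ihA]

theorem lev_shift (a : ℕ) (Δ : ℕ → ℕ) (M : Tm) : lev (scons a Δ) (shift M) = lev Δ M := by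
  rw [shift, lev_ren]; rfl

theorem lev_sub (Δ : ℕ → ℕ) (σ : ℕ → Tm) (M : Tm) :
    lev Δ (sub σ M) = lev (fun x => lev Δ (σ x)) M := by
  induction M generalizing Δ σ with
  | var x => rfl
  | srt i => rfl
  | app M N ihM ihN => exact ihM _ _
  | lam A M ihA ihM =>
    simp only [lev, sub, ihA, ihM]
    congr 1
    funext x
    cases x with
    | zero => rfl
    | succ n => exact lev_shift _ _ _
  | pi A M ihA ihM =>
    simp only [lev, sub, ihA, ihM]
    congr 1
    funext x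
    cases x with
    | zero => rfl
    | succ n => exact lev_shift _ _ _
  | eps A ihA => simp only [lev, sub, ihA]

theorem lev_inst (Δ : ℕ → ℕ) (M N : Tm) :
    lev Δ (inst M N) = lev (scons (lev Δ N) Δ) M := by
  rw [inst, lev_sub]
  congr 1
  funext x
  cases x <;> rfl

theorem LC.nil (Δ : ℕ → ℕ) : LC nil Δ := by intro x A h; cases h

variable {S : Sys}

theorem LC.ext_of {Γ : Ctx} {Δ : ℕ → ℕ} (h : LC Γ Δ) {A : Tm} {k : ℕ} (hA : lev Δ A = k + 1) :
    LC (ext A Γ) (scons (lev Δ A - 1) Δ) := by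
  intro x B hB
  cases x with
  | zero =>
    simp only [ext_zero, Option.some.injEq] at hB
    subst hB
    rw [lev_shift, scons_zero, hA]; rfl
  | succ n =>
    simp only [ext_succ, Option.map_eq_some_iff] at hB
    obtain ⟨C, hC, rfl⟩ := hB
    rw [lev_shift, scons_succ, h n C hC]

theorem Ty.lev {Γ : Ctx} {M A : Tm} (h : Ty S Γ M A) : WC S Γ → ∀ {Δ : ℕ → ℕ}, LC Γ Δ →
    lev Δ A = lev Δ M + 1 := by
  induction h with
  | ax h => intro w Δ l; rfl
  | var h _ ih => intro w Δ l; exact l _ _ h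
  | @pi Γ A B i j r hA hB ihA ihB =>
    intro w Δ l
    have h1 := ihA w l
    simp only [Core.lev] at h1
    have h2 : Core.lev Δ A = i + 1 := by omega
    have := ihB (w.ext hA) (l.ext_of h2)
    simpa only [Core.lev] using this
  | @lam Γ A B M i j r hA hB hM ihA ihB ihM =>
    intro w Δ l
    have h1 := ihA w l
    simp only [Core.lev] at h1
    have h2 : Core.lev Δ A = i + 1 := by omega
    exact ihM (w.ext hA) (l.ext_of h2)
  | app r hA hB hM hN ihA ihB ihM ihN =>
    intro w Δ l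
    have h1 := ihN w l
    have h2 := ihM w l
    simp only [Core.lev] at h2 ⊢
    rw [← h2, lev_inst, h1]
    rfl
  | conv hM hA hB c ihM ihA ihB =>
    intro w Δ l
    have h1 := ihM w l
    have h2 := ihA w l
    have h3 := ihB w l
    have h4 := hA.sort_cv w hB c
    subst h4
    simp only [Core.lev] at h2 h3
    omega
  | eps e h ih =>
    intro w Δ l
    have h2 := ih w l
    simp only [Core.lev] at h2 ⊢
    omega

theorem Ty.lev_srt {Γ : Ctx} {M : Tm} {k : ℕ} (h : Ty S Γ M (srt k)) (w : WC S Γ)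
    {Δ : ℕ → ℕ} (l : LC Γ Δ) : Core.lev Δ M = k + 1 := by
  have := h.lev w l
  simp only [Core.lev] at this
  omega

theorem Ty.lev_typ {Γ : Ctx} {M A : Tm} {k : ℕ} (h : Ty S Γ M A) (h' : Ty S Γ A (srt k))
    (w : WC S Γ) {Δ : ℕ → ℕ} (l : LC Γ Δ) : Core.lev Δ M = k := by
  have h1 := h.lev w l
  have h2 := h'.lev_srt w l
  omega

theorem LC.ext {Γ : Ctx} {Δ : ℕ → ℕ} (l : LC Γ Δ) {A : Tm} {i : ℕ} (hA : Ty S Γ A (srt i))
    (w : WC S Γ) : LC (ext A Γ) (scons i Δ) := by
  have h1 := hA.lev_srt w l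
  have := l.ext_of h1
  rw [h1] at this
  exact this

theorem Ty.lev_le {Γ : Ctx} {M A : Tm} (h : Ty S Γ M A) (w : WC S Γ) {Δ : ℕ → ℕ}
    (l : LC Γ Δ) : Core.lev Δ M ≤ S.n := by
  rcases h.tc w with ⟨k, rfl⟩ | ⟨i, hi⟩
  · have := h.sort_lt k rfl w
    have h2 := h.lev_srt w l
    omega
  · have := hi.sort_lt i rfl w
    have h2 := h.lev_typ hi w l
    omega

theorem Ty.lev_red {Γ : Ctx} {M M' A : Tm} (h : Ty S Γ M A) (w : WC S Γ) {Δ : ℕ → ℕ}
    (l : LC Γ Δ) (r : Red M M') : Core.lev Δ M' = Core.lev Δ M := by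
  have h1 := h.lev w l
  have h2 := (h.red w r).lev w l
  omega

/-- a typed substitution preserves levels -/
theorem Ty.lev_sub {Γ Γ' : Ctx} {M A : Tm} (h : Ty S Γ M A) (w : WC S Γ) (w' : WC S Γ')
    {Δ Δ' : ℕ → ℕ} (l : LC Γ Δ) (l' : LC Γ' Δ') {ρ : ℕ → Tm} (hρ : TS S Γ ρ Γ') :
    Core.lev Δ' (Core.sub ρ M) = Core.lev Δ M := by
  rcases h.tc w with ⟨k, rfl⟩ | ⟨i, hi⟩
  · rw [h.lev_srt w l, Ty.lev_srt (h.sub hρ) w' l']
  · rw [h.lev_typ hi w l, Ty.lev_typ (h.sub hρ) (hi.sub hρ) w' l']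

/-! ### Agreement -/

theorem Ty.agree {Γ : Ctx} {M A : Tm} (h : Ty S Γ M A) : WC S Γ → ∀ {Δ : ℕ → ℕ}, LC Γ Δ →
    ∀ {σ τ : ℕ → Tm}, (∀ x A, Γ x = some A → Core.lev Δ M ≤ Δ x → σ x = τ x) →
    Core.sub σ M = Core.sub τ M := by
  have key : ∀ {Γ : Ctx} {A : Tm} {Δ : ℕ → ℕ} {a l : ℕ} {σ τ : ℕ → Tm},
      (∀ x A, Γ x = some A → l ≤ Δ x → σ x = τ x) →
      ∀ x B, Core.ext A Γ x = some B → l ≤ scons a Δ x → up σ x = up τ x := by
    intro Γ A Δ a l σ τ h x B hB hl
    cases x with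
    | zero => rfl
    | succ n =>
      simp only [ext_succ, Option.map_eq_some_iff] at hB
      obtain ⟨C, hC, rfl⟩ := hB
      exact congrArg Core.shift (h n C hC hl)
  induction h with
  | ax h => intro w Δ l σ τ hs; rfl
  | var h _ ih => intro w Δ l σ τ hs; exact hs _ _ h le_rfl
  | @pi Γ A B i j r hA hB ihA ihB =>
    intro w Δ l σ τ hs
    have e1 := hA.lev_srt w l
    have e2 := hB.lev_srt (w.ext hA) (l.ext hA w)
    have e3 := S.le r
    simp only [Core.lev, e1, Nat.add_sub_cancel] at hs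
    rw [e2] at hs
    simp only [Core.sub]
    rw [ihA w l (fun x C hx hl => hs x C hx (by omega)),
      ihB (w.ext hA) (l.ext hA w) (key (fun x C hx hl => hs x C hx (by omega)))]
  | @lam Γ A B M i j r hA hB hM ihA ihB ihM =>
    intro w Δ l σ τ hs
    have e1 := hA.lev_srt w l
    have e2 := hM.lev_typ hB (w.ext hA) (l.ext hA w)
    have e3 := S.le r
    simp only [Core.lev, e1, Nat.add_sub_cancel] at hs
    rw [e2] at hs
    simp only [Core.sub]
    rw [ihA w l (fun x C hx hl => hs x C hx (by omega)),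
      ihM (w.ext hA) (l.ext hA w) (key (fun x C hx hl => hs x C hx (by omega)))]
  | @app Γ A B M N i j r hA hB hM hN ihA ihB ihM ihN =>
    intro w Δ l σ τ hs
    have e1 := hN.lev_typ hA w l
    have e2 := hM.lev_typ (Ty.pi r hA hB) w l
    have e3 := S.le r
    simp only [Core.lev] at hs
    simp only [Core.sub]
    rw [ihM w l (fun x C hx hl => hs x C hx hl),
      ihN w l (fun x C hx hl => hs x C hx (by omega))]
  | conv hM hA hB c ihM ihA ihB => intro w Δ l σ τ hs; exact ihM w l hs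
  | @eps Γ A i e h ih =>
    intro w Δ l σ τ hs
    have e1 := h.lev_srt w l
    simp only [Core.lev] at hs
    simp only [Core.sub]
    rw [ih w l (fun x C hx hl => hs x C hx (by omega))]

theorem Ty.agreeCv {Γ : Ctx} {M A : Tm} (h : Ty S Γ M A) : WC S Γ → ∀ {Δ : ℕ → ℕ}, LC Γ Δ →
    ∀ {σ τ : ℕ → Tm}, (∀ x A, Γ x = some A → Core.lev Δ M ≤ Δ x → Cv (σ x) (τ x)) →
    Cv (Core.sub σ M) (Core.sub τ M) := by
  have key : ∀ {Γ : Ctx} {A : Tm} {Δ : ℕ → ℕ} {a l : ℕ} {σ τ : ℕ → Tm},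
      (∀ x A, Γ x = some A → l ≤ Δ x → Cv (σ x) (τ x)) →
      ∀ x B, Core.ext A Γ x = some B → l ≤ scons a Δ x → Cv (up σ x) (up τ x) := by
    intro Γ A Δ a l σ τ h x B hB hl
    cases x with
    | zero => exact Cv.refl _
    | succ n =>
      simp only [ext_succ, Option.map_eq_some_iff] at hB
      obtain ⟨C, hC, rfl⟩ := hB
      exact Cv.ren _ (h n C hC hl)
  induction h with
  | ax h => intro w Δ l σ τ hs; exact Cv.refl _
  | var h _ ih => intro w Δ l σ τ hs; exact hs _ _ h le_rfl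
  | @pi Γ A B i j r hA hB ihA ihB =>
    intro w Δ l σ τ hs
    have e1 := hA.lev_srt w l
    have e2 := hB.lev_srt (w.ext hA) (l.ext hA w)
    have e3 := S.le r
    simp only [Core.lev, e1, Nat.add_sub_cancel] at hs
    rw [e2] at hs
    simp only [Core.sub]
    exact Cv.pi (ihA w l (fun x C hx hl => hs x C hx (by omega)))
      (ihB (w.ext hA) (l.ext hA w) (key (fun x C hx hl => hs x C hx (by omega))))
  | @lam Γ A B M i j r hA hB hM ihA ihB ihM =>
    intro w Δ l σ τ hs
    have e1 := hA.lev_srt w l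
    have e2 := hM.lev_typ hB (w.ext hA) (l.ext hA w)
    have e3 := S.le r
    simp only [Core.lev, e1, Nat.add_sub_cancel] at hs
    rw [e2] at hs
    simp only [Core.sub]
    exact Cv.lam (ihA w l (fun x C hx hl => hs x C hx (by omega)))
      (ihM (w.ext hA) (l.ext hA w) (key (fun x C hx hl => hs x C hx (by omega))))
  | @app Γ A B M N i j r hA hB hM hN ihA ihB ihM ihN =>
    intro w Δ l σ τ hs
    have e1 := hN.lev_typ hA w l
    have e2 := hM.lev_typ (Ty.pi r hA hB) w l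
    have e3 := S.le r
    simp only [Core.lev] at hs
    simp only [Core.sub]
    exact Cv.app (ihM w l (fun x C hx hl => hs x C hx hl))
      (ihN w l (fun x C hx hl => hs x C hx (by omega)))
  | conv hM hA hB c ihM ihA ihB => intro w Δ l σ τ hs; exact ihM w l hs
  | @eps Γ A i e h ih =>
    intro w Δ l σ τ hs
    have e1 := h.lev_srt w l
    simp only [Core.lev] at hs
    simp only [Core.sub]
    exact Cv.eps (ih w l (fun x C hx hl => hs x C hx (by omega)))

/-- closed terms are invariant under substitution -/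
theorem Ty.closed {M A : Tm} (h : Ty S Core.nil M A) (σ : ℕ → Tm) : Core.sub σ M = M := by
  have := h.agree WC.nil (LC.nil (fun _ => 0)) (σ := σ) (τ := Tm.var)
    (fun x A hx => by cases hx)
  rw [this, sub_var]

end Vale.Agent.Lib.P340.Core
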