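import Vale.Agent.Lib.P340.Sound

/-! Shape functions, and the first model: types are interpreted according to the shape of their
closed instances. -/

namespace Vale.Agent.Lib.P340.Core

open Tm

inductive Shape : Type
  | o
  | arr (a b : Shape)

/-- shapes of closed types of sort `p` -/
structure ShapeFn (S : Sys) (p : ℕ) where
  sh : Tm → Shape
  conv_eq : ∀ {T T' : Tm}, Ty S nil T (srt p) → Ty S nil T' (srt p) → Cv T T' → sh T = sh T'
  pi_lo : ∀ {A B u : Tm}, S.R p p → Ty S nil A (srt p) → Ty S (ext A nil) B (srt p) →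
    Ty S nil u A → sh (pi A B) = Shape.arr (sh A) (sh (inst B u))
  pi_hi : ∀ {A B D : Tm} {i : ℕ}, p < i → S.R i p → Ty S nil A (srt i) →
    Ty S (ext A nil) B (srt p) → Ty S nil D A → sh (pi A B) = sh (inst B D)
  srt_eq : ∀ k, sh (srt k) = Shape.o

/-- spines of closed arguments of sort above `m` -/
inductive Sp (S : Sys) (m : ℕ) : Tm → List Tm → Tm → Prop
  | nil {T : Tm} : Sp S m T [] T
  | cons {T K B D T' : Tm} {l : List Tm} {i : ℕ} : Cv T (pi K B) → S.R i m → m < i →
      Ty S Core.nil K (srt i) → Ty S (ext K Core.nil) B (srt m) → Ty S Core.nil D K →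
      Sp S m (inst B D) l T' → Sp S m T (D :: l) T'

variable {S : Sys} {m : ℕ}

theorem Sp.cv {T T0 T' : Tm} {l : List Tm} (h : Sp S m T l T') (c : Cv T0 T) :
    ∃ T'', Sp S m T0 l T'' ∧ Cv T'' T' := by
  cases h with
  | nil => exact ⟨T0, Sp.nil, c⟩
  | cons c' r hi hK hB hD h => exact ⟨T', Sp.cons (c.trans c') r hi hK hB hD h, Cv.refl _⟩

theorem Sp.sn (hs : SNge S (m + 1)) {T T' : Tm} {l : List Tm} (h : Sp S m T l T') :
    ∀ D ∈ l, SN D := by
  induction h with
  | nil => intro D hD; cases hD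
  | cons c' r hi hK hB hD h ih =>
    intro D' hD'
    rcases List.mem_cons.mp hD' with rfl | h'
    · refine hs _ _ hD ?_
      have := hD.lev_typ hK WC.nil (LC.nil (fun _ => 0))
      rw [lev0, this]
      omega
    · exact ih D' h'

def J (S : Sys) (m : ℕ) : Shape → Tm → Set Tm
  | .o, T => {t | ∀ l T', Sp S m T l T' → SN (appl t l)}
  | .arr a b, T => {t | (∀ l T', Sp S m T l T' → SN (appl t l)) ∧
      ∀ l T' A B u, Sp S m T l T' → Cv T' (pi A B) → Ty S nil A (srt m) →
        Ty S (ext A nil) B (srt m) → S.R m m → u ∈ J S m a A →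
        app (appl t l) u ∈ J S m b (inst B (eps A))}

theorem J.cv_le (s : Shape) {T T0 : Tm} (c : Cv T0 T) (t : Tm) (h : t ∈ J S m s T) :
    t ∈ J S m s T0 := by
  have aux : ∀ l T', Sp S m T0 l T' → ∃ T'', Sp S m T l T'' ∧ Cv T'' T' :=
    fun l T' h => h.cv c.symm
  cases s with
  | o =>
    intro l T' h'
    obtain ⟨T'', h1, _⟩ := aux l T' h'
    exact h l T'' h1
  | arr a b =>
    refine ⟨fun l T' h' => ?_, fun l T' A B u h' c' hA hB r hu => ?_⟩
    · obtain ⟨T'', h1, _⟩ := aux l T' h'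
      exact h.1 l T'' h1
    · obtain ⟨T'', h1, h2⟩ := aux l T' h'
      exact h.2 l T'' A B u h1 (h2.trans c') hA hB r hu

theorem J.cv (s : Shape) {T T0 : Tm} (c : Cv T0 T) : J S m s T0 = J S m s T := by
  ext t
  exact ⟨J.cv_le s c.symm t, J.cv_le s c t⟩

theorem J.sn {s : Shape} {T t : Tm} (h : t ∈ J S m s T) {l : List Tm} {T' : Tm}
    (h' : Sp S m T l T') : SN (appl t l) := by
  cases s with
  | o => exact h l T' h'
  | arr a b => exact h.1 l T' h'

theorem J.cand (hs : SNge S (m + 1)) (s : Shape) (T : Tm) : IsCand (J S m s T) := by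
  have A1 : ∀ (T : Tm) (A : Tm) (l0 : List Tm), SN A → (∀ N ∈ l0, SN N) →
      ∀ l T', Sp S m T l T' → SN (appl (appl (Tm.eps A) l0) l) := by
    intro T A l0 hA hl0 l T' h
    rw [← appl_append]
    refine SN.appl_eps hA (fun N hN => ?_)
    rcases List.mem_append.mp hN with h' | h'
    · exact hl0 N h'
    · exact h.sn hs N h'
  have A2 : ∀ (A P N : Tm) (l0 l : List Tm), SN A → SN N →
      SN (appl (appl (inst P N) l0) l) → SN (appl (appl (app (lam A P) N) l0) l) := by
    intro A P N l0 l hA hN h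
    rw [← appl_append] at h ⊢
    exact SN.exp hA hN h
  induction s generalizing T with
  | o =>
    refine ⟨fun t ht => ?_, fun A l0 hA hl0 => ?_, fun A P N l0 hA hN h => ?_⟩
    · exact ht [] T Sp.nil
    · exact fun l T' h => A1 T A l0 hA hl0 l T' h
    · exact fun l T' h' => A2 A P N l0 l hA hN (h l T' h')
  | arr a b iha ihb =>
    refine ⟨fun t ht => ?_, fun A l0 hA hl0 => ⟨?_, ?_⟩, fun A P N l0 hA hN h => ⟨?_, ?_⟩⟩
    · exact ht.1 [] T Sp.nil
    · exact fun l T' h => A1 T A l0 hA hl0 l T' h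
    · intro l T' A' B' u h c hA' hB' r hu
      rw [← appl_append, ← appl_snoc]
      refine (ihb _).eps A _ hA (fun N hN => ?_)
      simp only [List.mem_append, List.mem_singleton] at hN
      rcases hN with (hN | hN) | rfl
      · exact hl0 N hN
      · exact h.sn hs N hN
      · exact (iha _).sn _ hu
    · exact fun l T' h' => A2 A P N l0 l hA hN (h.1 l T' h')
    · intro l T' A' B' u h' c hA' hB' r hu
      have := h.2 l T' A' B' u h' c hA' hB' r hu
      rw [← appl_append, ← appl_snoc] at this ⊢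
      exact (ihb _).exp A P N _ hA hN this

theorem J.pi_lo (hs : SNge S (m + 1)) (a b : Shape) {A B : Tm} (r : S.R m m)
    (hA : Ty S nil A (srt m)) (hB : Ty S (ext A nil) B (srt m)) (t : Tm) :
    t ∈ J S m (.arr a b) (pi A B) ↔ ∀ u ∈ J S m a A, app t u ∈ J S m b (inst B (eps A)) := by
  have snA : SN A := by
    refine hs _ _ hA ?_
    rw [lev0, hA.lev_srt WC.nil (LC.nil _)]
  constructor
  · intro h u hu
    exact h.2 [] _ A B u Sp.nil (Cv.refl _) hA hB r hu
  · intro h
    have hno : ∀ l T', Sp S m (pi A B) l T' → l = [] ∧ T' = pi A B := by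
      intro l T' h'
      cases h' with
      | nil => exact ⟨rfl, rfl⟩
      | cons c r hi hK hB' hD h' =>
        exfalso
        have := hA.sort_cv WC.nil hK c.pi_inj.1
        omega
    refine ⟨fun l T' h' => ?_, fun l T' A' B' u h' c hA' hB' r hu => ?_⟩
    · obtain ⟨rfl, rfl⟩ := hno l T' h'
      have h1 := h _ ((J.cand hs a A).eps_mem snA)
      exact SN.appL ((J.cand hs b _).sn _ h1)
    · obtain ⟨rfl, rfl⟩ := hno l T' h'
      obtain ⟨c1, c2⟩ := c.pi_inj
      rw [J.cv a c1.symm] at hu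
      rw [← J.cv b (Cv.inst c2 (Cv.eps c1))]
      exact h u hu

theorem J.pi_hi (hE : S.E) (s : Shape) {A B : Tm} {i : ℕ} (r : S.R i m)
    (hi : m < i) (hA : Ty S nil A (srt i)) (hB : Ty S (ext A nil) B (srt m)) (t : Tm) :
    t ∈ J S m s (pi A B) ↔ ∀ D, Ty S nil D A → app t D ∈ J S m s (inst B D) := by
  have hno : ∀ l T', Sp S m (pi A B) l T' → (l = [] ∧ T' = pi A B) ∨
      ∃ D l' T'', l = D :: l' ∧ Ty S nil D A ∧ Sp S m (inst B D) l' T'' ∧ Cv T'' T' := by
    intro l T' h'
    cases h' with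
    | nil => exact Or.inl ⟨rfl, rfl⟩
    | @cons _ K B' D _ l' j c r hi hK hB' hD h' =>
      obtain ⟨c1, c2⟩ := c.pi_inj
      obtain ⟨T'', h1, h2⟩ := h'.cv (Cv.inst c2 (Cv.refl D))
      exact Or.inr ⟨D, l', T'', rfl, Ty.conv hD hK hA c1.symm, h1, h2⟩
  have hsn : (∀ D, Ty S nil D A → app t D ∈ J S m s (inst B D)) →
      ∀ l T', Sp S m (pi A B) l T' → SN (appl t l) := by
    intro h l T' h'
    rcases hno l T' h' with ⟨rfl, rfl⟩ | ⟨D, l', T'', rfl, hD, h1, h2⟩
    · exact SN.appL (J.sn (h (eps A) (Ty.eps hE hA)) Sp.nil)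
    · exact J.sn (h D hD) h1
  constructor
  · intro h D hD
    have key : ∀ l T', Sp S m (inst B D) l T' → Sp S m (pi A B) (D :: l) T' :=
      fun l T' h' => Sp.cons (Cv.refl _) r hi hA hB hD h'
    cases s with
    | o => exact fun l T' h' => h (D :: l) T' (key l T' h')
    | arr a b =>
      exact ⟨fun l T' h' => h.1 (D :: l) T' (key l T' h'),
        fun l T' A' B' u h' c hA' hB' r' hu =>
          h.2 (D :: l) T' A' B' u (key l T' h') c hA' hB' r' hu⟩
  · intro h
    cases s with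
    | o => exact hsn h
    | arr a b =>
      refine ⟨hsn h, fun l T' A' B' u h' c hA' hB' r hu => ?_⟩
      rcases hno l T' h' with ⟨rfl, rfl⟩ | ⟨D, l', T'', rfl, hD, h1, h2⟩
      · exfalso
        have := hA.sort_cv WC.nil hA' c.pi_inj.1
        omega
      · exact (h D hD).2 l' T'' A' B' u h1 (h2.trans c) hA' hB' r hu

theorem J.srt_eq (T : Tm) (k : ℕ) (hT : T = srt k) : J S m .o T = {t | SN t} := by
  subst hT
  ext t
  constructor
  · intro h; exact h [] _ Sp.nil
  · intro h l T' h'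
    cases h' with
    | nil => exact h
    | cons c r hi hK hB hD h' => exact (Cv.srt_pi c).elim

def mdlA (hE : S.E) (hs : SNge S (m + 1)) (F : ShapeFn S m) : Mdl S m where
  V := Unit
  d := ()
  I := fun A ρ _ => J S m (F.sh (sub ρ A)) (sub ρ A)
  cand := fun _ _ _ _ _ => J.cand hs _ _
  conv_eq := fun {Γ Δ A B ρ} _ _ _ hρ hA hB c => by
    rw [F.conv_eq (hA.sub hρ) (hB.sub hρ) (c.sub ρ)]
    exact J.cv _ (c.sub ρ)
  shift_eq := fun A N ρ _ _ => by rw [sub_scons_shift]
  srt_eq := fun k ρ _ => by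
    rw [sub_srt, F.srt_eq]
    exact J.srt_eq _ k rfl
  pi_lo := fun {Γ Δ A B ρ} _ _ _ hρ r hA hB t => by
    have hA' := hA.sub hρ
    have hB' := hB.sub (hρ.up hA')
    have hN : Ty S nil (eps (sub ρ A)) (sub ρ A) := Ty.eps hE hA'
    rw [sub_pi, F.pi_lo r hA' hB' hN, ← inst_up]
    exact J.pi_lo hs _ _ r hA' hB' t
  pi_hi := fun {Γ Δ A B ρ i} _ _ _ hρ r hi hA hB t => by
    have hA' := hA.sub hρ
    have hB' := hB.sub (hρ.up hA')
    rw [sub_pi, J.pi_hi hE _ r hi hA' hB' t]
    constructor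
    · intro h D _ hD _
      rw [← inst_up, ← F.pi_hi hi r hA' hB' hD]
      exact h D hD
    · intro h D hD
      have snD : SN D := by
        refine hs _ _ hD ?_
        rw [lev0, hD.lev_typ hA' WC.nil (LC.nil _)]
        omega
      have := h D () hD snD
      rw [← inst_up, ← F.pi_hi hi r hA' hB' hD] at this
      exact this
  inst_lo := fun {Γ Δ A B N ρ} _ w l hρ hA hB hN => by
    rw [sub_inst]
    have e1 := hB.lev_srt (w.ext hA) (l.ext hA w)
    have : sub (scons (sub ρ N) ρ) B = sub (scons (eps (sub ρ A)) ρ) B := by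
      refine hB.agree (w.ext hA) (l.ext hA w) (fun x C hx hl => ?_)
      cases x with
      | zero => rw [e1] at hl; simp only [scons_zero] at hl; omega
      | succ n => rfl
    rw [this]
  inst_hi := fun {Γ Δ A B N ρ i} _ w l hρ hi hA hB hN => ⟨(), by rw [sub_inst]⟩

end Vale.Agent.Lib.P340.Core
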