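import Vale.Agent.Lib.P340.ModelA

/-! The second model: type constructors are interpreted in simple types over saturated sets. -/

namespace Vale.Agent.Lib.P340.Core

open Tm

def Cd : Type := {X : Set Tm // IsCand X}

def core : Shape → Type
  | .o => Cd
  | .arr a b => (List Tm → core a) → List Tm → core b

def dflt : (s : Shape) → core s
  | .o => (⟨_, IsCand.sn_set⟩ : Cd)
  | .arr _ b => fun _ _ => dflt b

/-- families of semantic values, one for each shape -/
def U : Type := (s : Shape) → List Tm → core s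

def dU : U := fun s _ => dflt s

open Classical in
noncomputable def ofI (a : Shape) (v : List Tm → core a) : U :=
  fun s => if h : a = s then h ▸ v else fun _ => dflt s

theorem ofI_self (a : Shape) (v : List Tm → core a) : ofI a v a = v := by
  simp [ofI]

open Classical in
noncomputable def nf (M : Tm) : Tm := if h : ∃ N, Red M N ∧ Nrm N then h.choose else M

theorem nf_red {M : Tm} (h : SN M) : Red M (nf M) := by
  rw [nf, dif_pos h.wn]
  exact h.wn.choose_spec.1

theorem nf_nrm {M : Tm} (h : SN M) : Nrm (nf M) := by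
  rw [nf, dif_pos h.wn]
  exact h.wn.choose_spec.2

theorem nrm_red {M N : Tm} (h : Nrm M) (r : Red M N) : N = M := by
  cases Relation.ReflTransGen.cases_head r with
  | inl h' => exact h'.symm
  | inr h' =>
    obtain ⟨P, s, _⟩ := h'
    exact (h P s).elim

theorem nf_eq {M N : Tm} (hM : SN M) (hN : SN N) (c : Cv M N) : nf M = nf N := by
  have c' : Cv (nf M) (nf N) :=
    ((Cv.of_red (nf_red hM)).symm.trans c).trans (Cv.of_red (nf_red hN))
  obtain ⟨P, h1, h2⟩ := c'
  rw [← nrm_red (nf_nrm hM) h1, ← nrm_red (nf_nrm hN) h2]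

variable {S : Sys} {m : ℕ}

open Classical in
noncomputable def tsh (F : ShapeFn S (m + 1)) (N : Tm) : Shape :=
  if h : ∃ A, Ty S nil N A ∧ Ty S nil A (srt (m + 1)) then F.sh h.choose else Shape.o

theorem tsh_eq (F : ShapeFn S (m + 1)) {N A : Tm} (h : Ty S nil N A)
    (hA : Ty S nil A (srt (m + 1))) : tsh F N = F.sh A := by
  have hex : ∃ A, Ty S nil N A ∧ Ty S nil A (srt (m + 1)) := ⟨A, h, hA⟩
  rw [tsh, dif_pos hex]
  exact F.conv_eq hex.choose_spec.2 hA (hex.choose_spec.1.ut h)

open Classical in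
noncomputable def appV (F : ShapeFn S (m + 1)) (N : Tm) (f x : U) : U := fun s =>
  if lev0 N = m + 1 then
    (f (Shape.arr (tsh F N) s) [] : (List Tm → core _) → List Tm → core s) (x (tsh F N))
  else fun l => f s (nf N :: l)

open Classical in
noncomputable def lamV (S : Sys) (m : ℕ) (A : Tm) (g : Tm → U → U) : U := fun s =>
  if lev0 A = m + 2 then
    match s with
    | .o => fun _ => dflt .o
    | .arr a b => fun _ v => g (eps A) (ofI a v) b
  else fun l =>
    match l with
    | [] => dflt s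
    | D :: l' => if Ty S nil D A then g D dU s l' else dflt s

open Classical in
noncomputable def piV (S : Sys) (m : ℕ) (A : Tm) (a : U) (g : Tm → U → U) : U := fun s =>
  match s with
  | .o => fun _ =>
    if lev0 A = m + 1 then
      (⟨_, IsCand.arrSet (a .o [] : Cd).2 (g (eps A) dU .o [] : Cd).2⟩ : Cd)
    else
      (⟨_, IsCand.interSet (ι := {p : Tm × U // Ty S nil p.1 A})
        (d := fun p => p.1.1) (fun p => (g p.1.1 p.1.2 .o [] : Cd).2)⟩ : Cd)
  | .arr a b => fun _ => dflt (.arr a b)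

noncomputable def ev (F : ShapeFn S (m + 1)) : Tm → (ℕ → Tm) → (ℕ → U) → U
  | var x, _, e => e x
  | srt _, _, _ => dU
  | eps _, _, _ => dU
  | app M N, ρ, e => appV F (sub ρ N) (ev F M ρ e) (ev F N ρ e)
  | lam A M, ρ, e => lamV S m (sub ρ A) (fun u v => ev F M (scons u ρ) (scons v e))
  | pi A B, ρ, e =>
      piV S m (sub ρ A) (ev F A ρ e) (fun u v => ev F B (scons u ρ) (scons v e))

variable (F : ShapeFn S (m + 1))

/-- the saturated set denoted by a type -/
noncomputable def evS (A : Tm) (ρ : ℕ → Tm) (e : ℕ → U) : Set Tm :=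
  (ev F A ρ e .o [] : Cd).1

theorem evS_cand (A : Tm) (ρ : ℕ → Tm) (e : ℕ → U) : IsCand (evS F A ρ e) :=
  (ev F A ρ e .o [] : Cd).2

theorem appV_sem {N : Tm} {f x : U} (h : lev0 N = m + 1) (s : Shape) :
    appV F N f x s =
      (f (Shape.arr (tsh F N) s) [] : (List Tm → core _) → List Tm → core s) (x (tsh F N)) :=
  if_pos h

theorem appV_syn {N : Tm} {f x : U} (h : lev0 N ≠ m + 1) (s : Shape) :
    appV F N f x s = fun l => f s (nf N :: l) :=
  if_neg h

theorem lamV_sem {A : Tm} {g : Tm → U → U} (h : lev0 A = m + 2) (a b : Shape) :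
    lamV S m A g (Shape.arr a b) = fun _ v => g (eps A) (ofI a v) b := by
  unfold lamV
  rw [if_pos h]

theorem lamV_sem_o {A : Tm} {g : Tm → U → U} (h : lev0 A = m + 2) :
    lamV S m A g Shape.o = fun _ => dflt .o := by
  unfold lamV
  rw [if_pos h]

theorem lamV_nil {A : Tm} {g : Tm → U → U} (h : lev0 A ≠ m + 2) (s : Shape) :
    lamV S m A g s [] = dflt s := by
  unfold lamV
  rw [if_neg h]

theorem lamV_cons {A : Tm} {g : Tm → U → U} (h : lev0 A ≠ m + 2) (s : Shape) {D : Tm}
    (hD : Ty S nil D A) (l : List Tm) : lamV S m A g s (D :: l) = g D dU s l := by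
  unfold lamV
  rw [if_neg h]
  exact if_pos hD

theorem lamV_cons' {A : Tm} {g : Tm → U → U} (h : lev0 A ≠ m + 2) (s : Shape) {D : Tm}
    (hD : ¬ Ty S nil D A) (l : List Tm) : lamV S m A g s (D :: l) = dflt s := by
  unfold lamV
  rw [if_neg h]
  exact if_neg hD

/-- the saturated set of a product -/
theorem piV_lo {A : Tm} {a : U} {g : Tm → U → U} (h : lev0 A = m + 1) (l : List Tm) :
    (piV S m A a g .o l : Cd).1 =
      arrSet (a .o [] : Cd).1 (g (eps A) dU .o [] : Cd).1 := by
  exact congrArg (fun x : Cd => x.1) (if_pos h)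

theorem piV_hi {A : Tm} {a : U} {g : Tm → U → U} (h : lev0 A ≠ m + 1) (l : List Tm) :
    (piV S m A a g .o l : Cd).1 = interSet (ι := {p : Tm × U // Ty S nil p.1 A})
      (fun p => p.1.1) (fun p => (g p.1.1 p.1.2 .o [] : Cd).1) := by
  exact congrArg (fun x : Cd => x.1) (if_neg h)

theorem ev_ren (M : Tm) : ∀ (ξ : ℕ → ℕ) (ρ : ℕ → Tm) (e : ℕ → U),
    ev F (ren ξ M) ρ e = ev F M (fun x => ρ (ξ x)) (fun x => e (ξ x)) := by
  have hup : ∀ {α : Type} (a : α) (f : ℕ → α) (ξ : ℕ → ℕ),
      (fun x => scons a f (upr ξ x)) = scons a (fun x => f (ξ x)) := by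
    intro α a f ξ
    funext x
    cases x <;> rfl
  induction M with
  | var x => intro ξ ρ e; rfl
  | srt k => intro ξ ρ e; rfl
  | eps A _ => intro ξ ρ e; rfl
  | app M N ihM ihN =>
    intro ξ ρ e
    simp only [ren, ev, ihM, ihN, sub_ren]
  | lam A M ihA ihM =>
    intro ξ ρ e
    simp only [ren, ev, ihM, sub_ren, hup]
  | pi A B ihA ihB =>
    intro ξ ρ e
    simp only [ren, ev, ihA, ihB, sub_ren, hup]

theorem ev_shift (M u : Tm) (v : U) (ρ : ℕ → Tm) (e : ℕ → U) :
    ev F (shift M) (scons u ρ) (scons v e) = ev F M ρ e := by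
  rw [shift, ev_ren]; rfl

theorem ev_sub (M : Tm) : ∀ (θ : ℕ → Tm) (ρ : ℕ → Tm) (e : ℕ → U),
    ev F (sub θ M) ρ e = ev F M (fun x => sub ρ (θ x)) (fun x => ev F (θ x) ρ e) := by
  have hup1 : ∀ (a : Tm) (ρ θ : ℕ → Tm),
      (fun x => sub (scons a ρ) (up θ x)) = scons a (fun x => sub ρ (θ x)) := by
    intro a ρ θ
    funext x
    cases x with
    | zero => rfl
    | succ n => exact sub_scons_shift _ _ _
  have hup2 : ∀ (a : Tm) (v : U) (ρ θ : ℕ → Tm) (e : ℕ → U),
      (fun x => ev F (up θ x) (scons a ρ) (scons v e)) =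
        scons v (fun x => ev F (θ x) ρ e) := by
    intro a v ρ θ e
    funext x
    cases x with
    | zero => rfl
    | succ n => exact ev_shift F _ _ _ _ _
  induction M with
  | var x => intro ξ ρ e; rfl
  | srt k => intro ξ ρ e; rfl
  | eps A _ => intro ξ ρ e; rfl
  | app M N ihM ihN =>
    intro ξ ρ e
    simp only [sub, ev, ihM, ihN, sub_sub]
  | lam A M ihA ihM =>
    intro ξ ρ e
    simp only [sub, ev, ihM, sub_sub, hup1, hup2]
  | pi A B ihA ihB =>
    intro ξ ρ e
    simp only [sub, ev, ihA, ihB, sub_sub, hup1, hup2]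

theorem ev_inst (M N : Tm) (ρ : ℕ → Tm) (e : ℕ → U) :
    ev F (inst M N) ρ e = ev F M (scons (sub ρ N) ρ) (scons (ev F N ρ e) e) := by
  rw [inst, ev_sub]
  congr 1
  · funext x; cases x <;> rfl
  · funext x; cases x <;> rfl

end Vale.Agent.Lib.P340.Core
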