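import Vale.Agent.Lib.P340.ModelB

/-! Invariance of the second model. -/

namespace Vale.Agent.Lib.P340.Core

open Tm

variable {S : Sys} {m : ℕ} (F : ShapeFn S (m + 1))

theorem appV_sem' {N : Tm} {f x : U} (h : lev0 N = m + 1) {a : Shape} (ha : tsh F N = a)
    (s : Shape) : appV F N f x s =
      (f (Shape.arr a s) [] : (List Tm → core _) → List Tm → core s) (x a) := by
  subst ha
  exact if_pos h

theorem lamV_sem' {A : Tm} {g : Tm → U → U} (h : lev0 A = m + 2) {s a b : Shape}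
    (hs : s = Shape.arr a b) :
    lamV S m A g s = hs ▸ (fun _ v => g (eps A) (ofI a v) b : List Tm → core (.arr a b)) := by
  subst hs
  exact lamV_sem h a b

theorem sh_eq {Γ : Ctx} {Δ : ℕ → ℕ} (w : WC S Γ) (l : LC Γ Δ) {ρ ρ' : ℕ → Tm}
    (hρ : TS S Γ ρ nil) (hρ' : TS S Γ ρ' nil)
    (hcv : ∀ x A, Γ x = some A → m + 2 ≤ Δ x → Cv (ρ x) (ρ' x)) {A : Tm}
    (hA : Ty S Γ A (srt (m + 1))) : F.sh (sub ρ A) = F.sh (sub ρ' A) := by
  refine F.conv_eq (hA.sub hρ) (hA.sub hρ') (hA.agreeCv w l (fun x C hx hl => ?_))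
  rw [hA.lev_srt w l] at hl
  exact hcv x C hx hl

theorem cv_ty {Γ : Ctx} {Δ : ℕ → ℕ} (w : WC S Γ) (l : LC Γ Δ) {ρ ρ' : ℕ → Tm}
    (hcv : ∀ x A, Γ x = some A → m + 2 ≤ Δ x → Cv (ρ x) (ρ' x)) {A C : Tm}
    (hA : Ty S Γ A C) (h : m + 2 ≤ lev Δ A) : Cv (sub ρ A) (sub ρ' A) :=
  hA.agreeCv w l (fun x C hx hl => hcv x C hx (by omega))

theorem ext_cv {Γ : Ctx} {Δ : ℕ → ℕ} {ρ ρ' : ℕ → Tm} {A : Tm} {i : ℕ} {u u' : Tm}
    (hcv : ∀ x A, Γ x = some A → m + 2 ≤ Δ x → Cv (ρ x) (ρ' x))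
    (hu : m + 2 ≤ i → Cv u u') :
    ∀ x C, ext A Γ x = some C → m + 2 ≤ scons i Δ x → Cv (scons u ρ x) (scons u' ρ' x) := by
  intro x C hx hl
  cases x with
  | zero => exact hu hl
  | succ n =>
    simp only [ext_succ, Option.map_eq_some_iff] at hx
    obtain ⟨D, hD, rfl⟩ := hx
    exact hcv n D hD hl

theorem ext_val {Γ : Ctx} {Δ : ℕ → ℕ} {ρ : ℕ → Tm} {A : Tm} {i : ℕ} {u : Tm}
    {e e' : ℕ → U} {v v' : U}
    (hval : ∀ x A, Γ x = some A → Δ x = m + 1 → ∀ s, F.sh (sub ρ A) = s → e x s = e' x s)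
    (hv : i = m + 1 → ∀ s, F.sh (sub ρ A) = s → v s = v' s) :
    ∀ x C, ext A Γ x = some C → scons i Δ x = m + 1 → ∀ s, F.sh (sub (scons u ρ) C) = s →
      scons v e x s = scons v' e' x s := by
  intro x C hx hl s hs
  cases x with
  | zero =>
    simp only [ext_zero, Option.some.injEq] at hx
    subst hx
    rw [sub_scons_shift] at hs
    exact hv hl s hs
  | succ n =>
    simp only [ext_succ, Option.map_eq_some_iff] at hx
    obtain ⟨D, hD, rfl⟩ := hx
    rw [sub_scons_shift] at hs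
    exact hval n D hD hl s hs

theorem ev_inv (hE : S.E) (hsn : SNge S (m + 1)) {Γ : Ctx} {M K : Tm} (h : Ty S Γ M K) :
    WC S Γ → ∀ {Δ : ℕ → ℕ}, LC Γ Δ → ∀ {ρ ρ' : ℕ → Tm}, TS S Γ ρ nil → TS S Γ ρ' nil →
    ∀ {e e' : ℕ → U}, (∀ x A, Γ x = some A → m + 2 ≤ Δ x → Cv (ρ x) (ρ' x)) →
    (∀ x A, Γ x = some A → Δ x = m + 1 → ∀ s, F.sh (sub ρ A) = s → e x s = e' x s) →
    Ty S Γ K (srt (m + 1)) → ∀ s, F.sh (sub ρ K) = s → ev F M ρ e s = ev F M ρ' e' s := by
  induction h with
  | ax hi => intro w Δ l ρ ρ' hρ hρ' e e' hcv hval hK s hs; rfl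
  | @var Γ x A i hx hA ihA =>
    intro w Δ l ρ ρ' hρ hρ' e e' hcv hval hK s hs
    exact hval x A hx ((Ty.var hx hA).lev_typ hK w l) s hs
  | eps hE' hA ihA => intro w Δ l ρ ρ' hρ hρ' e e' hcv hval hK s hs; rfl
  | @conv Γ M A B i j hM hA hB c ihM ihA ihB =>
    intro w Δ l ρ ρ' hρ hρ' e e' hcv hval hK s hs
    have h1 := hA.sort_cv w hK c
    subst h1
    refine ihM w l hρ hρ' hcv hval hA s ?_
    rw [F.conv_eq (hA.sub hρ) (hK.sub hρ) (c.sub ρ), hs]
  | @pi Γ A B i j r hA hB ihA ihB =>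
    intro w Δ l ρ ρ' hρ hρ' e e' hcv hval hK s hs
    have hj : j = m := by
      have := hK.gen_srt.2.srt_inj
      omega
    subst hj
    rw [sub_srt, F.srt_eq] at hs
    subst hs
    have eA := hA.lev_srt w l
    have hji := S.le r
    have l1 : lev0 (sub ρ A) = i + 1 := (hA.sub hρ).lev_srt WC.nil (LC.nil _)
    have l2 : lev0 (sub ρ' A) = i + 1 := (hA.sub hρ').lev_srt WC.nil (LC.nil _)
    have hsrt : ∀ ρ : ℕ → Tm, F.sh (sub ρ (srt j)) = Shape.o := fun ρ => F.srt_eq j
    funext ll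
    refine Subtype.ext ?_
    by_cases hij : i = j
    · subst hij
      have hN : Ty S nil (eps (sub ρ A)) (sub ρ A) := Ty.eps hE (hA.sub hρ)
      have hN' : Ty S nil (eps (sub ρ' A)) (sub ρ' A) := Ty.eps hE (hA.sub hρ')
      have h1 := ihA w l hρ hρ' hcv hval hK Shape.o (hsrt ρ)
      have h2 := ihB (w.ext hA) (l.ext hA w) (hρ.cons hN) (hρ'.cons hN')
        (e := scons dU e) (e' := scons dU e') (ext_cv hcv (fun h => by omega))
        (ext_val F hval (fun h => by omega)) (hK.shift A) Shape.o (hsrt _)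
      simp only [ev]
      rw [piV_lo l1, piV_lo l2, h1, h2]
    · have c := cv_ty w l hcv hA (by omega)
      simp only [ev]
      rw [piV_hi (by omega), piV_hi (by omega)]
      have hB2 : ∀ D v, Ty S nil D (sub ρ A) → Ty S nil D (sub ρ' A) →
          ev F B (scons D ρ) (scons v e) Shape.o = ev F B (scons D ρ') (scons v e') Shape.o := by
        intro D v hD hD'
        exact ihB (w.ext hA) (l.ext hA w) (hρ.cons hD) (hρ'.cons hD')
          (ext_cv hcv (fun _ => Cv.refl _)) (ext_val F hval (fun _ _ _ => rfl)) (hK.shift A)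
          Shape.o (hsrt _)
      ext t
      constructor
      · rintro ⟨h1, h2⟩
        refine ⟨h1, ?_⟩
        rintro ⟨⟨D, v⟩, hD'⟩ hsD
        have hD : Ty S nil D (sub ρ A) := Ty.conv hD' (hA.sub hρ') (hA.sub hρ) c.symm
        have := h2 ⟨⟨D, v⟩, hD⟩ hsD
        simp only at this ⊢
        rw [← hB2 D v hD hD']
        exact this
      · rintro ⟨h1, h2⟩
        refine ⟨h1, ?_⟩
        rintro ⟨⟨D, v⟩, hD⟩ hsD
        have hD' : Ty S nil D (sub ρ' A) := Ty.conv hD (hA.sub hρ) (hA.sub hρ') c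
        have := h2 ⟨⟨D, v⟩, hD'⟩ hsD
        simp only at this ⊢
        rw [hB2 D v hD hD']
        exact this
  | @lam Γ A B M i j r hA hB hM ihA ihB ihM =>
    intro w Δ l ρ ρ' hρ hρ' e e' hcv hval hK s hs
    have hj : j = m + 1 := (Ty.pi r hA hB).sort_unique hK
    subst hj
    have eA := hA.lev_srt w l
    have hji := S.le r
    have l1 : lev0 (sub ρ A) = i + 1 := (hA.sub hρ).lev_srt WC.nil (LC.nil _)
    have l2 : lev0 (sub ρ' A) = i + 1 := (hA.sub hρ').lev_srt WC.nil (LC.nil _)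
    have hA1 := hA.sub hρ
    have hB1 := hB.sub (hρ.up hA1)
    simp only [ev]
    by_cases hij : i = m + 1
    · subst hij
      have hN : Ty S nil (eps (sub ρ A)) (sub ρ A) := Ty.eps hE (hA.sub hρ)
      have hN' : Ty S nil (eps (sub ρ' A)) (sub ρ' A) := Ty.eps hE (hA.sub hρ')
      rw [sub_pi, F.pi_lo r hA1 hB1 hN] at hs
      subst hs
      rw [lamV_sem l1, lamV_sem l2]
      funext ll v
      rw [inst_up]
      exact ihM (w.ext hA) (l.ext hA w) (hρ.cons hN) (hρ'.cons hN')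
        (ext_cv hcv (fun h => by omega)) (ext_val F hval (fun _ _ _ => rfl)) hB _ rfl
    · have c := cv_ty w l hcv hA (by omega)
      funext ll
      cases ll with
      | nil => rw [lamV_nil (by omega), lamV_nil (by omega)]
      | cons D ll =>
        by_cases hD : Ty S nil D (sub ρ A)
        · have hD' : Ty S nil D (sub ρ' A) := Ty.conv hD (hA.sub hρ) (hA.sub hρ') c
          rw [lamV_cons (by omega) s hD, lamV_cons (by omega) s hD']
          refine congrFun (ihM (w.ext hA) (l.ext hA w) (hρ.cons hD) (hρ'.cons hD')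
            (ext_cv hcv (fun _ => Cv.refl _)) (ext_val F hval (fun _ _ _ => rfl)) hB s ?_) ll
          rw [← inst_up, ← F.pi_hi (by omega) r hA1 hB1 hD]
          exact hs
        · have hD' : ¬ Ty S nil D (sub ρ' A) := fun hD' =>
            hD (Ty.conv hD' (hA.sub hρ') (hA.sub hρ) c.symm)
          rw [lamV_cons' (by omega) s hD, lamV_cons' (by omega) s hD']
  | @app Γ A B M N i j r hA hB hM hN ihA ihB ihM ihN =>
    intro w Δ l ρ ρ' hρ hρ' e e' hcv hval hK s hs
    have hj : j = m + 1 := (hB.inst hN w).sort_unique hK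
    subst hj
    have hji := S.le r
    have hA1 := hA.sub hρ
    have hA2 := hA.sub hρ'
    have hB1 := hB.sub (hρ.up hA1)
    have hN1 := hN.sub hρ
    have hN2 := hN.sub hρ'
    have l1 : lev0 (sub ρ N) = i := hN1.lev_typ hA1 WC.nil (LC.nil _)
    have l2 : lev0 (sub ρ' N) = i := hN2.lev_typ hA2 WC.nil (LC.nil _)
    have lN := hN.lev_typ hA w l
    simp only [ev]
    by_cases hij : i = m + 1
    · subst hij
      have h1 : tsh F (sub ρ N) = F.sh (sub ρ A) := tsh_eq F hN1 hA1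
      have h2 : tsh F (sub ρ' N) = F.sh (sub ρ A) := by
        rw [tsh_eq F hN2 hA2, sh_eq F w l hρ hρ' hcv hA]
      rw [appV_sem' F l1 h1, appV_sem' F l2 h2]
      rw [ihN w l hρ hρ' hcv hval hA _ rfl,
        ihM w l hρ hρ' hcv hval (Ty.pi r hA hB) (Shape.arr (F.sh (sub ρ A)) s) ?_]
      rw [sub_pi, F.pi_lo r hA1 hB1 hN1, ← sub_inst', hs]
    · rw [appV_syn F (by omega), appV_syn F (by omega)]
      have c : Cv (sub ρ N) (sub ρ' N) := cv_ty w l hcv hN (by omega)
      have hnf : nf (sub ρ N) = nf (sub ρ' N) :=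
        nf_eq (hsn _ _ hN1 (by omega)) (hsn _ _ hN2 (by omega)) c
      rw [hnf, ihM w l hρ hρ' hcv hval (Ty.pi r hA hB) s ?_]
      rw [sub_pi, F.pi_hi (by omega) r hA1 hB1 hN1, ← sub_inst', hs]

/-- invariance under one step of reduction -/
theorem ev_step (hE : S.E) (hsn : SNge S (m + 1)) {Γ : Ctx} {M K : Tm} (h : Ty S Γ M K) :
    WC S Γ → ∀ {Δ : ℕ → ℕ}, LC Γ Δ → ∀ {ρ : ℕ → Tm}, TS S Γ ρ nil → ∀ {e : ℕ → U} {M' : Tm},
    Step M M' → Ty S Γ K (srt (m + 1)) → ∀ s, F.sh (sub ρ K) = s →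
    ev F M ρ e s = ev F M' ρ e s := by
  induction h with
  | ax hi => intro w Δ l ρ hρ e M' st hK s hs; cases st
  | var hx hA ihA => intro w Δ l ρ hρ e M' st hK s hs; cases st
  | eps hE' hA ihA =>
    intro w Δ l ρ hρ e M' st hK s hs
    cases st with
    | epsD st => rfl
  | @conv Γ M A B i j hM hA hB c ihM ihA ihB =>
    intro w Δ l ρ hρ e M' st hK s hs
    have h1 := hA.sort_cv w hK c
    subst h1
    refine ihM w l hρ st hA s ?_
    rw [F.conv_eq (hA.sub hρ) (hK.sub hρ) (c.sub ρ), hs]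
  | @pi Γ A B i j r hA hB ihA ihB =>
    intro w Δ l ρ hρ e M' st hK s hs
    have hj : j = m := by
      have := hK.gen_srt.2.srt_inj
      omega
    subst hj
    rw [sub_srt, F.srt_eq] at hs
    subst hs
    have hji := S.le r
    have l1 : lev0 (sub ρ A) = i + 1 := (hA.sub hρ).lev_srt WC.nil (LC.nil _)
    have hsrt : ∀ ρ : ℕ → Tm, F.sh (sub ρ (srt j)) = Shape.o := fun ρ => F.srt_eq j
    funext ll
    refine Subtype.ext ?_
    cases st with
    | @piD _ A' _ st =>
      have hA' := hA.step w st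
      have l2 : lev0 (sub ρ A') = i + 1 := (hA'.sub hρ).lev_srt WC.nil (LC.nil _)
      have c : Cv (sub ρ A) (sub ρ A') := (Cv.of_step st).sub ρ
      simp only [ev]
      by_cases hij : i = j
      · subst hij
        have hN : Ty S nil (eps (sub ρ A)) (sub ρ A) := Ty.eps hE (hA.sub hρ)
        have hN' : Ty S nil (eps (sub ρ A')) (sub ρ A) :=
          Ty.conv (Ty.eps hE (hA'.sub hρ)) (hA'.sub hρ) (hA.sub hρ) c.symm
        have h1 := ihA w l hρ st (e := e) hK Shape.o (hsrt ρ)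
        have h2 := ev_inv F hE hsn hB (w.ext hA) (l.ext hA w) (hρ.cons hN) (hρ.cons hN')
          (e := scons dU e) (e' := scons dU e) (ext_cv (fun _ _ _ _ => Cv.refl _)
            (fun h => by omega))
          (fun _ _ _ _ _ _ => rfl) (hK.shift A) Shape.o (hsrt _)
        rw [piV_lo l1, piV_lo l2, h1, h2]
      · rw [piV_hi (by omega), piV_hi (by omega)]
        ext t
        constructor
        · rintro ⟨h1, h2⟩
          refine ⟨h1, ?_⟩
          rintro ⟨⟨D, v⟩, hD'⟩ hsD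
          have hD : Ty S nil D (sub ρ A) := Ty.conv hD' (hA'.sub hρ) (hA.sub hρ) c.symm
          exact h2 ⟨⟨D, v⟩, hD⟩ hsD
        · rintro ⟨h1, h2⟩
          refine ⟨h1, ?_⟩
          rintro ⟨⟨D, v⟩, hD⟩ hsD
          have hD' : Ty S nil D (sub ρ A') := Ty.conv hD (hA.sub hρ) (hA'.sub hρ) c
          exact h2 ⟨⟨D, v⟩, hD'⟩ hsD
    | @piB _ _ B' st =>
      simp only [ev]
      by_cases hij : i = j
      · subst hij
        have hN : Ty S nil (eps (sub ρ A)) (sub ρ A) := Ty.eps hE (hA.sub hρ)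
        have h2 := ihB (w.ext hA) (l.ext hA w) (hρ.cons hN) (e := scons dU e) st
          (hK.shift A) Shape.o (hsrt _)
        rw [piV_lo l1, piV_lo l1, h2]
      · rw [piV_hi (by omega), piV_hi (by omega)]
        have hB2 : ∀ D v, Ty S nil D (sub ρ A) →
            ev F B (scons D ρ) (scons v e) Shape.o = ev F B' (scons D ρ) (scons v e) Shape.o :=
          fun D v hD => ihB (w.ext hA) (l.ext hA w) (hρ.cons hD) st (hK.shift A) Shape.o
            (hsrt _)
        ext t
        constructor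
        · rintro ⟨h1, h2⟩
          refine ⟨h1, ?_⟩
          rintro ⟨⟨D, v⟩, hD⟩ hsD
          have := h2 ⟨⟨D, v⟩, hD⟩ hsD
          simp only at this ⊢
          rw [← hB2 D v hD]
          exact this
        · rintro ⟨h1, h2⟩
          refine ⟨h1, ?_⟩
          rintro ⟨⟨D, v⟩, hD⟩ hsD
          have := h2 ⟨⟨D, v⟩, hD⟩ hsD
          simp only at this ⊢
          rw [hB2 D v hD]
          exact this
  | @lam Γ A B M i j r hA hB hM ihA ihB ihM =>
    intro w Δ l ρ hρ e M' st hK s hs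
    have hj : j = m + 1 := (Ty.pi r hA hB).sort_unique hK
    subst hj
    have hji := S.le r
    have l1 : lev0 (sub ρ A) = i + 1 := (hA.sub hρ).lev_srt WC.nil (LC.nil _)
    have hA1 := hA.sub hρ
    have hB1 := hB.sub (hρ.up hA1)
    have hN : Ty S nil (eps (sub ρ A)) (sub ρ A) := Ty.eps hE (hA.sub hρ)
    cases st with
    | @lamD _ A' _ st =>
      have hA' := hA.step w st
      have l2 : lev0 (sub ρ A') = i + 1 := (hA'.sub hρ).lev_srt WC.nil (LC.nil _)
      have c : Cv (sub ρ A) (sub ρ A') := (Cv.of_step st).sub ρ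
      simp only [ev]
      by_cases hij : i = m + 1
      · subst hij
        have hN' : Ty S nil (eps (sub ρ A')) (sub ρ A) :=
          Ty.conv (Ty.eps hE (hA'.sub hρ)) (hA'.sub hρ) (hA.sub hρ) c.symm
        rw [sub_pi, F.pi_lo r hA1 hB1 hN] at hs
        subst hs
        rw [lamV_sem l1, lamV_sem l2]
        funext ll v
        rw [inst_up]
        exact ev_inv F hE hsn hM (w.ext hA) (l.ext hA w) (hρ.cons hN) (hρ.cons hN')
          (ext_cv (fun _ _ _ _ => Cv.refl _) (fun h => by omega))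
          (fun _ _ _ _ _ _ => rfl) hB _ rfl
      · funext ll
        cases ll with
        | nil => rw [lamV_nil (by omega), lamV_nil (by omega)]
        | cons D ll =>
          by_cases hD : Ty S nil D (sub ρ A)
          · have hD' : Ty S nil D (sub ρ A') := Ty.conv hD (hA.sub hρ) (hA'.sub hρ) c
            rw [lamV_cons (by omega) s hD, lamV_cons (by omega) s hD']
          · have hD' : ¬ Ty S nil D (sub ρ A') := fun hD' =>
              hD (Ty.conv hD' (hA'.sub hρ) (hA.sub hρ) c.symm)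
            rw [lamV_cons' (by omega) s hD, lamV_cons' (by omega) s hD']
    | @lamB _ _ M' st =>
      simp only [ev]
      by_cases hij : i = m + 1
      · subst hij
        rw [sub_pi, F.pi_lo r hA1 hB1 hN] at hs
        subst hs
        rw [lamV_sem l1, lamV_sem l1]
        funext ll v
        rw [inst_up]
        exact ihM (w.ext hA) (l.ext hA w) (hρ.cons hN) st hB _ rfl
      · funext ll
        cases ll with
        | nil => rw [lamV_nil (by omega), lamV_nil (by omega)]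
        | cons D ll =>
          by_cases hD : Ty S nil D (sub ρ A)
          · rw [lamV_cons (by omega) s hD, lamV_cons (by omega) s hD]
            refine congrFun (ihM (w.ext hA) (l.ext hA w) (hρ.cons hD) st hB s ?_) ll
            rw [← inst_up, ← F.pi_hi (by omega) r hA1 hB1 hD]
            exact hs
          · rw [lamV_cons' (by omega) s hD, lamV_cons' (by omega) s hD]
  | @app Γ A B M N i j r hA hB hM hN ihA ihB ihM ihN =>
    intro w Δ l ρ hρ e M' st hK s hs
    have hj : j = m + 1 := (hB.inst hN w).sort_unique hK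
    subst hj
    have hji := S.le r
    have hA1 := hA.sub hρ
    have hB1 := hB.sub (hρ.up hA1)
    have hN1 := hN.sub hρ
    have l1 : lev0 (sub ρ N) = i := hN1.lev_typ hA1 WC.nil (LC.nil _)
    cases st with
    | @appL _ M' _ st =>
      simp only [ev]
      by_cases hij : i = m + 1
      · subst hij
        have h1 : tsh F (sub ρ N) = F.sh (sub ρ A) := tsh_eq F hN1 hA1
        rw [appV_sem' F l1 h1, appV_sem' F l1 h1]
        rw [ihM w l hρ st (Ty.pi r hA hB) (Shape.arr (F.sh (sub ρ A)) s) ?_]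
        rw [sub_pi, F.pi_lo r hA1 hB1 hN1, ← sub_inst', hs]
      · rw [appV_syn F (by omega), appV_syn F (by omega)]
        rw [ihM w l hρ st (Ty.pi r hA hB) s ?_]
        rw [sub_pi, F.pi_hi (by omega) r hA1 hB1 hN1, ← sub_inst', hs]
    | @appR _ _ N' st =>
      have hN' := hN.step w st
      have hN2 := hN'.sub hρ
      have l2 : lev0 (sub ρ N') = i := hN2.lev_typ hA1 WC.nil (LC.nil _)
      simp only [ev]
      by_cases hij : i = m + 1
      · subst hij
        have h1 : tsh F (sub ρ N) = F.sh (sub ρ A) := tsh_eq F hN1 hA1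
        have h2 : tsh F (sub ρ N') = F.sh (sub ρ A) := tsh_eq F hN2 hA1
        rw [appV_sem' F l1 h1, appV_sem' F l2 h2]
        rw [ihN w l hρ st hA _ rfl]
      · rw [appV_syn F (by omega), appV_syn F (by omega)]
        have hnf : nf (sub ρ N) = nf (sub ρ N') :=
          nf_eq (hsn _ _ hN1 (by omega)) (hsn _ _ hN2 (by omega)) ((Cv.of_step st).sub ρ)
        rw [hnf]
    | beta A0 M0 _ =>
      obtain ⟨B0, i0, j0, r0, hA0, hB0, hM0, c⟩ := hM.gen_lam
      obtain ⟨c1, c2⟩ := c.pi_inj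
      have hi0 : i0 = i := hA0.sort_cv w hA c1
      subst hi0
      have hj0 : j0 = m + 1 := by
        have h1 := Ty.pi r0 hA0 hB0
        have h2 := Ty.pi r hA hB
        exact h1.sort_cv w h2 c
      subst hj0
      have hN0 : Ty S Γ N A0 := Ty.conv hN hA hA0 c1.symm
      have hA01 := hA0.sub hρ
      have hN01 := hN0.sub hρ
      have l0 : lev0 (sub ρ A0) = i0 + 1 := hA01.lev_srt WC.nil (LC.nil _)
      have hshB : F.sh (sub (scons (sub ρ N) ρ) B0) = s := by
        rw [← sub_inst]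
        rw [F.conv_eq ((hB0.inst hN0 w).sub hρ) ((hB.inst hN w).sub hρ)
          ((Cv.inst c2 (Cv.refl N)).sub ρ), hs]
      rw [ev_inst]
      simp only [ev]
      by_cases hij : i0 = m + 1
      · subst hij
        have h1 : tsh F (sub ρ N) = F.sh (sub ρ A0) := tsh_eq F hN01 hA01
        rw [appV_sem' F l1 h1, lamV_sem l0]
        have hNe : Ty S nil (eps (sub ρ A0)) (sub ρ A0) := Ty.eps hE hA01
        symm
        refine ev_inv F hE hsn hM0 (w.ext hA0) (l.ext hA0 w) (hρ.cons hN01) (hρ.cons hNe)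
          (ext_cv (fun _ _ _ _ => Cv.refl _) (fun h => by omega))
          (ext_val F (fun _ _ _ _ _ _ => rfl) (fun _ s' hs' => ?_)) hB0 s hshB
        subst hs'
        rw [ofI_self]
      · rw [appV_syn F (by omega)]
        funext ll
        have snN : SN (sub ρ N) := hsn _ _ hN1 (by omega)
        have hNn : Ty S nil (nf (sub ρ N)) (sub ρ A0) := hN01.red WC.nil (nf_red snN)
        refine (lamV_cons (by omega) s hNn ll).trans ?_
        symm
        refine congrFun (ev_inv F hE hsn hM0 (w.ext hA0) (l.ext hA0 w) (hρ.cons hN01)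
          (hρ.cons hNn) (ext_cv (fun _ _ _ _ => Cv.refl _) (fun _ => Cv.of_red (nf_red snN)))
          (ext_val F (fun _ _ _ _ _ _ => rfl) (fun h => by omega)) hB0 s hshB) ll

theorem ev_red (hE : S.E) (hsn : SNge S (m + 1)) {Γ : Ctx} {M M' K : Tm} (w : WC S Γ)
    {Δ : ℕ → ℕ} (l : LC Γ Δ) {ρ : ℕ → Tm} (hρ : TS S Γ ρ nil) {e : ℕ → U}
    (hK : Ty S Γ K (srt (m + 1))) (h : Ty S Γ M K) (r : Red M M') (s : Shape)
    (hs : F.sh (sub ρ K) = s) : ev F M ρ e s = ev F M' ρ e s := by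
  induction r with
  | refl => rfl
  | tail r st ih => exact ih.trans (ev_step F hE hsn (h.red w r) w l hρ st hK s hs)

theorem ev_conv (hE : S.E) (hsn : SNge S (m + 1)) {Γ : Ctx} {M M' K : Tm} (w : WC S Γ)
    {Δ : ℕ → ℕ} (l : LC Γ Δ) {ρ : ℕ → Tm} (hρ : TS S Γ ρ nil) {e : ℕ → U}
    (hK : Ty S Γ K (srt (m + 1))) (h : Ty S Γ M K) (h' : Ty S Γ M' K) (c : Cv M M')
    (s : Shape) (hs : F.sh (sub ρ K) = s) : ev F M ρ e s = ev F M' ρ e s := by
  obtain ⟨C, r1, r2⟩ := c
  exact (ev_red F hE hsn w l hρ hK h r1 s hs).trans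
    (ev_red F hE hsn w l hρ hK h' r2 s hs).symm

noncomputable def mdlB (hE : S.E) (hs : SNge S (m + 1)) (hm : m + 1 < S.n) : Mdl S m where
  V := U
  d := dU
  I := evS F
  cand := fun e _ _ _ _ => evS_cand F _ _ e
  conv_eq := fun {Γ Δ A B ρ} e w l hρ hA hB c => by
    unfold evS
    rw [ev_conv F hE hs w l hρ (Ty.ax hm) hA hB c Shape.o (F.srt_eq m)]
  shift_eq := fun A N ρ v e => by
    unfold evS
    rw [ev_shift]
  srt_eq := fun k ρ e => rfl
  pi_lo := fun {Γ Δ A B ρ} e w l hρ r hA hB t => by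
    have l1 : lev0 (sub ρ A) = m + 1 := (hA.sub hρ).lev_srt WC.nil (LC.nil _)
    have e1 : evS F (pi A B) ρ e =
        arrSet (evS F A ρ e) (evS F B (scons (eps (sub ρ A)) ρ) (scons dU e)) := piV_lo l1 []
    rw [e1]
    constructor
    · intro h; exact h.2
    · intro h
      refine ⟨?_, h⟩
      have snA : SN (sub ρ A) := hs _ _ (hA.sub hρ) l1.ge
      exact SN.appL ((evS_cand F _ _ _).sn _ (h _ ((evS_cand F A ρ e).eps_mem snA)))
  pi_hi := fun {Γ Δ A B ρ i} e w l hρ r hi hA hB t => by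
    have l1 : lev0 (sub ρ A) = i + 1 := (hA.sub hρ).lev_srt WC.nil (LC.nil _)
    have e1 : evS F (pi A B) ρ e = interSet (ι := {p : Tm × U // Ty S nil p.1 (sub ρ A)})
      (fun p => p.1.1) (fun p => evS F B (scons p.1.1 ρ) (scons p.1.2 e)) :=
      piV_hi (by omega) []
    rw [e1]
    constructor
    · intro h D v hD snD
      exact h.2 ⟨⟨D, v⟩, hD⟩ snD
    · intro h
      refine ⟨?_, ?_⟩
      · have snA : SN (sub ρ A) := hs _ _ (hA.sub hρ) (by omega)
        exact SN.appL ((evS_cand F _ _ _).sn _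
          (h (eps (sub ρ A)) dU (Ty.eps hE (hA.sub hρ)) (SN.eps snA)))
      · rintro ⟨⟨D, v⟩, hD⟩ snD
        exact h D v hD snD
  inst_lo := fun {Γ Δ A B N ρ} e w l hρ hA hB hN => by
    unfold evS
    rw [ev_inst]
    have hNe : Ty S nil (eps (sub ρ A)) (sub ρ A) := Ty.eps hE (hA.sub hρ)
    rw [ev_inv F hE hs hB (w.ext hA) (l.ext hA w) (hρ.cons (hN.sub hρ)) (hρ.cons hNe)
      (ext_cv (fun _ _ _ _ => Cv.refl _) (fun h => by omega))
      (ext_val F (fun _ _ _ _ _ _ => rfl) (fun h => by omega)) (Ty.ax hm) Shape.o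
      (F.srt_eq m)]
  inst_hi := fun {Γ Δ A B N ρ i} e w l hρ hi hA hB hN => ⟨ev F N ρ e, by
    unfold evS
    rw [ev_inst]⟩

end Vale.Agent.Lib.P340.Core
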