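import Vale.Agent.Lib.P340.Core

/-! Strong normalization and saturated sets of raw terms. -/

namespace Vale.Agent.Lib.P340.Core

open Tm

theorem SN.step {M N : Tm} (h : SN M) (s : Step M N) : SN N := h.inv s

theorem SN.red {M N : Tm} (h : SN M) (r : Red M N) : SN N := by
  induction r with
  | refl => exact h
  | tail _ s ih => exact ih.step s

/-- if every step of `f M` … : SN is reflected by maps that preserve steps -/
theorem SN.of_map {f : Tm → Tm} (hf : ∀ M N, Step M N → Step (f M) (f N)) {M : Tm}
    (h : SN (f M)) : SN M := by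
  generalize hq : f M = q at h
  induction h generalizing M with
  | intro q _ ih =>
    subst hq
    exact Acc.intro _ (fun N s => ih _ (hf _ _ s) rfl)

theorem SN.of_sub {σ : ℕ → Tm} {M : Tm} (h : SN (sub σ M)) : SN M :=
  SN.of_map (f := sub σ) (fun _ _ s => Step.sub σ s) h

theorem SN.appL {M N : Tm} (h : SN (app M N)) : SN M :=
  SN.of_map (f := fun M => app M N) (fun _ _ s => Step.appL _ s) h

theorem SN.appR {M N : Tm} (h : SN (app M N)) : SN N :=
  SN.of_map (f := fun N => app M N) (fun _ _ s => Step.appR _ s) h

theorem SN.piD {M N : Tm} (h : SN (pi M N)) : SN M :=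
  SN.of_map (f := fun M => pi M N) (fun _ _ s => Step.piD _ s) h

theorem SN.piB {M N : Tm} (h : SN (pi M N)) : SN N :=
  SN.of_map (f := fun N => pi M N) (fun _ _ s => Step.piB _ s) h

theorem SN.srt (i : ℕ) : SN (srt i) := Acc.intro _ (fun _ s => by cases s)

theorem SN.pi {A B : Tm} (hA : SN A) (hB : SN B) : SN (pi A B) := by
  induction hA generalizing B with
  | intro A _ ihA =>
    induction hB with
    | intro B hB ihB =>
      refine Acc.intro _ (fun t s => ?_)
      cases s with
      | piD _ s => exact ihA _ s (Acc.intro _ hB)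
      | piB _ s => exact ihB _ s

theorem SN.eps {A : Tm} (hA : SN A) : SN (eps A) := by
  induction hA with
  | intro A _ ihA =>
    refine Acc.intro _ (fun t s => ?_)
    cases s with
    | epsD s => exact ihA _ s

theorem SN.wn {M : Tm} (h : SN M) : ∃ N, Red M N ∧ Nrm N := by
  induction h with
  | intro M _ ih =>
    by_cases hn : Nrm M
    · exact ⟨M, Red.refl _, hn⟩
    · simp only [Nrm, not_forall, not_not] at hn
      obtain ⟨N, s⟩ := hn
      obtain ⟨P, h1, h2⟩ := ih N s
      exact ⟨P, (Red.single s).trans h1, h2⟩

/-! ### Iterated application -/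

def appl (t : Tm) (l : List Tm) : Tm := l.foldl app t

@[simp] theorem appl_nil (t : Tm) : appl t [] = t := rfl
@[simp] theorem appl_cons (t u : Tm) (l : List Tm) : appl t (u :: l) = appl (app t u) l := rfl
theorem appl_append (t : Tm) (l l' : List Tm) : appl t (l ++ l') = appl (appl t l) l' := by
  simp [appl, List.foldl_append]
theorem appl_snoc (t u : Tm) (l : List Tm) : appl t (l ++ [u]) = app (appl t l) u := by
  simp [appl, List.foldl_append]

/-- one step in one element of a list -/
inductive StepL : List Tm → List Tm → Prop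
  | head {N N' : Tm} (l : List Tm) : Step N N' → StepL (N :: l) (N' :: l)
  | tail (N : Tm) {l l' : List Tm} : StepL l l' → StepL (N :: l) (N :: l')

theorem Step.appl {t t' : Tm} (l : List Tm) (s : Step t t') : Step (appl t l) (appl t' l) := by
  induction l generalizing t t' with
  | nil => exact s
  | cons u l ih => exact ih (Step.appL u s)

theorem StepL.appl (t : Tm) {l l' : List Tm} (s : StepL l l') : Step (appl t l) (appl t l') := by
  induction s generalizing t with
  | head l s => exact Step.appl l (Step.appR t s)
  | tail N _ ih => exact ih _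

theorem Red.appl {t t' : Tm} (l : List Tm) (h : Red t t') : Red (appl t l) (appl t' l) :=
  Red.map (f := fun t => Core.appl t l) (fun _ _ s => Step.appl l s) h

theorem step_appl {t u : Tm} {l : List Tm} (s : Step (appl t l) u) :
    (∃ t', Step t t' ∧ u = appl t' l) ∨ (∃ l', StepL l l' ∧ u = appl t l') ∨
      ∃ A P N l', t = lam A P ∧ l = N :: l' ∧ u = appl (inst P N) l' := by
  induction l generalizing t with
  | nil => exact Or.inl ⟨u, s, rfl⟩
  | cons N l ih =>
    rcases ih s with ⟨t', s', e⟩ | ⟨l', s', e⟩ | ⟨A, P, N', l', e, _, _⟩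
    · cases s' with
      | beta A P _ => exact Or.inr (Or.inr ⟨A, P, N, l, rfl, rfl, e⟩)
      | appL _ s' => exact Or.inl ⟨_, s', e⟩
      | appR _ s' => exact Or.inr (Or.inl ⟨_, StepL.head l s', e⟩)
    · exact Or.inr (Or.inl ⟨_, StepL.tail N s', e⟩)
    · cases e

theorem SN.appl_head {t : Tm} {l : List Tm} (h : SN (appl t l)) : SN t :=
  SN.of_map (f := fun t => appl t l) (fun _ _ s => Step.appl l s) h

theorem accL {l : List Tm} (h : ∀ N ∈ l, SN N) : Acc (fun a b => StepL b a) l := by
  induction l with
  | nil => exact Acc.intro _ (fun _ s => by cases s)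
  | cons N l ih =>
    have h1 : SN N := h N (by simp)
    have h2 := ih (fun P hP => h P (by simp [hP]))
    clear h ih
    induction h1 generalizing l with
    | intro N _ ihN =>
      induction h2 with
      | intro l hl ihl =>
        refine Acc.intro _ (fun l' s => ?_)
        cases s with
        | head _ s => exact ihN _ s _ (Acc.intro _ hl)
        | tail _ s => exact ihl _ s

theorem SN.appl_eps {A : Tm} {l : List Tm} (hA : SN A) (hl : ∀ N ∈ l, SN N) :
    SN (Core.appl (Tm.eps A) l) := by
  have hl' := accL hl
  clear hl
  induction hA generalizing l with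
  | intro A _ ihA =>
    induction hl' with
    | intro l hl ihl =>
      refine Acc.intro _ (fun t s => ?_)
      rcases step_appl s with ⟨t', s', e⟩ | ⟨l', s', e⟩ | ⟨_, _, _, _, e, _, _⟩
      · cases s' with
        | epsD s' => subst e; exact ihA _ s' (Acc.intro _ hl)
      · subst e; exact ihl _ s'
      · cases e

theorem SN.exp {A N : Tm} (hA : SN A) (hN : SN N) {P : Tm} {l : List Tm}
    (h : SN (Core.appl (Core.inst P N) l)) : SN (Core.appl (app (lam A P) N) l) := by
  induction hA generalizing N P l with
  | intro A _ ihA =>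
    induction hN generalizing P l with
    | intro N hN ihN =>
      generalize hq : Core.appl (Core.inst P N) l = q at h
      induction h generalizing P l with
      | intro q hq' ihq =>
        subst hq
        refine Acc.intro _ (fun t s => ?_)
        have main : SN (Core.appl (Core.inst P N) l) := Acc.intro _ hq'
        rcases step_appl s with ⟨t', s', e⟩ | ⟨l', s', e⟩ | ⟨_, _, _, _, e, _, _⟩
        · subst e
          cases s' with
          | beta => exact main
          | appL _ s' =>
            cases s' with
            | lamD _ s' => exact ihA _ s' (Acc.intro _ hN) main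
            | lamB _ s' => exact ihq _ (Step.appl l (Step.sub _ s')) rfl
          | appR _ s' =>
            exact ihN _ s' (main.red (Red.appl l (Red.inst (Red.refl P) (Red.single s'))))
        · subst e
          exact ihq _ (StepL.appl _ s') rfl
        · cases e

/-! ### Saturated sets -/

structure IsCand (X : Set Tm) : Prop where
  sn : ∀ t ∈ X, SN t
  eps : ∀ A l, SN A → (∀ N ∈ l, SN N) → appl (Tm.eps A) l ∈ X
  exp : ∀ A P N l, SN A → SN N → appl (inst P N) l ∈ X → appl (app (lam A P) N) l ∈ X

theorem IsCand.sn_set : IsCand {t | SN t} where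
  sn := fun _ h => h
  eps := fun _ _ hA hl => SN.appl_eps hA hl
  exp := fun _ _ _ _ hA hN h => SN.exp hA hN h

theorem IsCand.eps_mem {X : Set Tm} (h : IsCand X) {A : Tm} (hA : SN A) : Tm.eps A ∈ X :=
  h.eps A [] hA (fun N hN => by cases hN)

/-- arrow of saturated sets -/
def arrSet (X Y : Set Tm) : Set Tm := {t | SN t ∧ ∀ u ∈ X, app t u ∈ Y}

theorem IsCand.arrSet {X Y : Set Tm} (hX : IsCand X) (hY : IsCand Y) :
    IsCand (arrSet X Y) where
  sn := fun t h => h.1
  eps := fun A l hA hl => by
    refine ⟨SN.appl_eps hA hl, fun u hu => ?_⟩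
    rw [← appl_snoc]
    refine hY.eps A _ hA (fun N hN => ?_)
    simp only [List.mem_append, List.mem_singleton] at hN
    rcases hN with hN | rfl
    · exact hl N hN
    · exact hX.sn _ hu
  exp := fun A P N l hA hN h => by
    refine ⟨SN.exp hA hN h.1, fun u hu => ?_⟩
    have := h.2 u hu
    rw [← appl_snoc] at this ⊢
    exact hY.exp A P N _ hA hN this

/-- intersection over a family of arguments -/
def interSet {ι : Type} (d : ι → Tm) (Y : ι → Set Tm) : Set Tm :=
  {t | SN t ∧ ∀ i, SN (d i) → app t (d i) ∈ Y i}

theorem IsCand.interSet {ι : Type} {d : ι → Tm} {Y : ι → Set Tm} (hY : ∀ i, IsCand (Y i)) :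
    IsCand (interSet d Y) where
  sn := fun t h => h.1
  eps := fun A l hA hl => by
    refine ⟨SN.appl_eps hA hl, fun i hi => ?_⟩
    rw [← appl_snoc]
    refine (hY i).eps A _ hA (fun N hN => ?_)
    simp only [List.mem_append, List.mem_singleton] at hN
    rcases hN with hN | rfl
    · exact hl N hN
    · exact hi
  exp := fun A P N l hA hN h => by
    refine ⟨SN.exp hA hN h.1, fun i hi => ?_⟩
    have := h.2 i hi
    rw [← appl_snoc] at this ⊢
    exact (hY i).exp A P N _ hA hN this

end Vale.Agent.Lib.P340.Core
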