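import Vale.Agent.Lib.P340.Lev
import Vale.Agent.Lib.P340.Sat

/-! Abstract models at level `m` and their soundness. -/

namespace Vale.Agent.Lib.P340.Core

open Tm

/-- level of closed terms -/
def lev0 (M : Tm) : ℕ := lev (fun _ => 0) M

/-- closed typed terms of level at least `m` are strongly normalizing -/
def SNge (S : Sys) (m : ℕ) : Prop := ∀ M A, Ty S nil M A → m ≤ lev0 M → SN M

structure Mdl (S : Sys) (m : ℕ) where
  V : Type
  d : V
  I : Tm → (ℕ → Tm) → (ℕ → V) → Set Tm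
  cand : ∀ {Γ : Ctx} {Δ : ℕ → ℕ} {A : Tm} {ρ : ℕ → Tm} (e : ℕ → V), WC S Γ → LC Γ Δ →
    TS S Γ ρ nil → Ty S Γ A (srt m) → IsCand (I A ρ e)
  conv_eq : ∀ {Γ : Ctx} {Δ : ℕ → ℕ} {A B : Tm} {ρ : ℕ → Tm} (e : ℕ → V), WC S Γ → LC Γ Δ →
    TS S Γ ρ nil → Ty S Γ A (srt m) → Ty S Γ B (srt m) → Cv A B → I A ρ e = I B ρ e
  shift_eq : ∀ (A N : Tm) (ρ : ℕ → Tm) (v : V) (e : ℕ → V),
    I (shift A) (scons N ρ) (scons v e) = I A ρ e
  srt_eq : ∀ (k : ℕ) (ρ : ℕ → Tm) (e : ℕ → V), I (srt k) ρ e = {t | SN t}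
  pi_lo : ∀ {Γ : Ctx} {Δ : ℕ → ℕ} {A B : Tm} {ρ : ℕ → Tm} (e : ℕ → V), WC S Γ → LC Γ Δ →
    TS S Γ ρ nil → S.R m m → Ty S Γ A (srt m) → Ty S (ext A Γ) B (srt m) →
    ∀ t, t ∈ I (pi A B) ρ e ↔
      ∀ u ∈ I A ρ e, app t u ∈ I B (scons (eps (sub ρ A)) ρ) (scons d e)
  pi_hi : ∀ {Γ : Ctx} {Δ : ℕ → ℕ} {A B : Tm} {ρ : ℕ → Tm} {i : ℕ} (e : ℕ → V), WC S Γ →
    LC Γ Δ → TS S Γ ρ nil → S.R i m → m < i → Ty S Γ A (srt i) → Ty S (ext A Γ) B (srt m) →
    ∀ t, t ∈ I (pi A B) ρ e ↔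
      ∀ D v, Ty S nil D (sub ρ A) → SN D → app t D ∈ I B (scons D ρ) (scons v e)
  inst_lo : ∀ {Γ : Ctx} {Δ : ℕ → ℕ} {A B N : Tm} {ρ : ℕ → Tm} (e : ℕ → V), WC S Γ →
    LC Γ Δ → TS S Γ ρ nil → Ty S Γ A (srt m) → Ty S (ext A Γ) B (srt m) → Ty S Γ N A →
    I (inst B N) ρ e = I B (scons (eps (sub ρ A)) ρ) (scons d e)
  inst_hi : ∀ {Γ : Ctx} {Δ : ℕ → ℕ} {A B N : Tm} {ρ : ℕ → Tm} {i : ℕ} (e : ℕ → V), WC S Γ →
    LC Γ Δ → TS S Γ ρ nil → m < i → Ty S Γ A (srt i) → Ty S (ext A Γ) B (srt m) →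
    Ty S Γ N A → ∃ v, I (inst B N) ρ e = I B (scons (sub ρ N) ρ) (scons v e)

variable {S : Sys}

theorem sn_hi {m : ℕ} (hs : SNge S (m + 1)) {Γ : Ctx} {M A : Tm} (h : Ty S Γ M A)
    (w : WC S Γ) {Δ : ℕ → ℕ} (l : LC Γ Δ) {ρ : ℕ → Tm} (hρ : TS S Γ ρ nil)
    (hl : m < lev Δ M) : SN (sub ρ M) := by
  refine hs _ _ (h.sub hρ) ?_
  rw [lev0, h.lev_sub w WC.nil l (LC.nil _) hρ]
  exact hl

theorem eq_hi {m : ℕ} {Γ : Ctx} {M A : Tm} (h : Ty S Γ M A)
    (w : WC S Γ) {Δ : ℕ → ℕ} (l : LC Γ Δ) {ρ σ : ℕ → Tm}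
    (hσ : ∀ x A, Γ x = some A → m < Δ x → σ x = ρ x)
    (hl : m < lev Δ M) : sub σ M = sub ρ M :=
  h.agree w l (fun x C hx hlx => hσ x C hx (by omega))

theorem sound {m : ℕ} (hE : S.E) (hs : SNge S (m + 1)) (𝓜 : Mdl S m) {Γ : Ctx} {M A : Tm}
    (h : Ty S Γ M A) : WC S Γ → ∀ {Δ : ℕ → ℕ}, LC Γ Δ → ∀ {ρ : ℕ → Tm}, TS S Γ ρ nil →
    ∀ {e : ℕ → 𝓜.V} {σ : ℕ → Tm}, (∀ x A, Γ x = some A → Δ x = m → σ x ∈ 𝓜.I A ρ e) →
    (∀ x A, Γ x = some A → m < Δ x → σ x = ρ x) → lev Δ M = m →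
    SN (sub σ M) ∧ (Ty S Γ A (srt m) → sub σ M ∈ 𝓜.I A ρ e) := by
  -- extension of the substitutions
  have key1 : ∀ {Γ : Ctx} {A : Tm} {Δ : ℕ → ℕ} {ρ σ : ℕ → Tm} {e : ℕ → 𝓜.V} {i : ℕ} {N u : Tm}
      {v : 𝓜.V}, (∀ x A, Γ x = some A → Δ x = m → σ x ∈ 𝓜.I A ρ e) →
      (i = m → u ∈ 𝓜.I A ρ e) →
      ∀ x B, ext A Γ x = some B → scons i Δ x = m →
        scons u σ x ∈ 𝓜.I B (scons N ρ) (scons v e) := by
    intro Γ A Δ ρ σ e i N u v h1 h2 x B hB hx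
    cases x with
    | zero =>
      simp only [ext_zero, Option.some.injEq] at hB
      subst hB
      rw [𝓜.shift_eq]
      exact h2 hx
    | succ n =>
      simp only [ext_succ, Option.map_eq_some_iff] at hB
      obtain ⟨C, hC, rfl⟩ := hB
      rw [𝓜.shift_eq]
      exact h1 n C hC hx
  have key2 : ∀ {Γ : Ctx} {A : Tm} {Δ : ℕ → ℕ} {ρ σ : ℕ → Tm} {i : ℕ} {N u : Tm},
      (∀ x A, Γ x = some A → m < Δ x → σ x = ρ x) → (m < i → u = N) →
      ∀ x B, ext A Γ x = some B → m < scons i Δ x → scons u σ x = scons N ρ x := by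
    intro Γ A Δ ρ σ i N u h1 h2 x B hB hx
    cases x with
    | zero => exact h2 hx
    | succ n =>
      simp only [ext_succ, Option.map_eq_some_iff] at hB
      obtain ⟨C, hC, rfl⟩ := hB
      exact h1 n C hC hx
  induction h with
  | @ax Γ i hi =>
    intro w Δ l ρ hρ e σ h1 h2 hl
    refine ⟨SN.srt i, fun _ => ?_⟩
    rw [𝓜.srt_eq]
    exact SN.srt i
  | @var Γ x A i hx hA ihA =>
    intro w Δ l ρ hρ e σ h1 h2 hl
    have hm := (Ty.var hx hA).lev_typ hA w l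
    have hm' : i = m := hm.symm.trans hl
    subst hm'
    have := h1 x A hx hl
    exact ⟨(𝓜.cand e w l hρ hA).sn _ this, fun _ => this⟩
  | @pi Γ A B i j r hA hB ihA ihB =>
    intro w Δ l ρ hρ e σ h1 h2 hl
    have e1 := hA.lev_srt w l
    have e2 := (Ty.pi r hA hB).lev_srt w l
    have e3 := hB.lev_srt (w.ext hA) (l.ext hA w)
    have hj : j + 1 = m := e2.symm.trans hl
    have hji := S.le r
    have snA : SN (sub σ A) := by
      by_cases hi : m < i + 1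
      · rw [eq_hi hA w l h2 (by omega)]
        exact sn_hi hs hA w l hρ (by omega)
      · exact (ihA w l hρ h1 h2 (by omega)).1
    have snB : SN (sub (up σ) B) := by
      have hN : Ty S nil (eps (sub ρ A)) (sub ρ A) := Ty.eps hE (hA.sub hρ)
      have := (ihB (w.ext hA) (l.ext hA w) (hρ.cons hN) (e := scons 𝓜.d e)
        (σ := scons (eps (sub ρ A)) σ)
        (key1 h1 (fun hi => ?_)) (key2 h2 (fun _ => rfl)) (by omega)).1
      · rw [← inst_up] at this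
        exact SN.of_sub this
      · subst hi
        exact (𝓜.cand e w l hρ hA).eps_mem (sn_hi hs hA w l hρ (by omega))
    have snP : SN (sub σ (Tm.pi A B)) := SN.pi snA snB
    refine ⟨snP, fun _ => ?_⟩
    rw [𝓜.srt_eq]
    exact snP
  | @lam Γ A B M i j r hA hB hM ihA ihB ihM =>
    intro w Δ l ρ hρ e σ h1 h2 hl
    have e1 := hA.lev_srt w l
    have e2 := (Ty.lam r hA hB hM).lev_typ (Ty.pi r hA hB) w l
    have e3 := hM.lev_typ hB (w.ext hA) (l.ext hA w)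
    have hj : j = m := e2.symm.trans hl
    subst hj
    have hji := S.le r
    have snA : SN (sub ρ A) := sn_hi hs hA w l hρ (by omega)
    have eqA : sub σ A = sub ρ A := eq_hi hA w l h2 (by omega)
    have hmem : sub σ (Tm.lam A M) ∈ 𝓜.I (Tm.pi A B) ρ e := by
      rcases Nat.lt_or_eq_of_le hji with hi | hi
      · rw [𝓜.pi_hi e w l hρ r hi hA hB]
        intro D v hD hsD
        have := (ihM (w.ext hA) (l.ext hA w) (hρ.cons hD) (e := scons v e)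
          (σ := scons D σ) (key1 h1 (fun hi' => by omega)) (key2 h2 (fun _ => rfl)) e3).2 hB
        rw [← inst_up] at this
        have hc := 𝓜.cand (scons v e) (w.ext hA) (l.ext hA w) (hρ.cons hD) hB
        have := hc.exp (sub σ A) (sub (up σ) M) D [] (by rw [eqA]; exact snA) hsD this
        exact this
      · subst hi
        rw [𝓜.pi_lo e w l hρ r hA hB]
        intro u hu
        have hN : Ty S nil (eps (sub ρ A)) (sub ρ A) := Ty.eps hE (hA.sub hρ)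
        have := (ihM (w.ext hA) (l.ext hA w) (hρ.cons hN) (e := scons 𝓜.d e)
          (σ := scons u σ) (key1 h1 (fun _ => hu)) (key2 h2 (fun h => absurd h (lt_irrefl _)))
          e3).2 hB
        rw [← inst_up] at this
        have hc := 𝓜.cand (scons 𝓜.d e) (w.ext hA) (l.ext hA w) (hρ.cons hN) hB
        have hu' := (𝓜.cand e w l hρ hA).sn u hu
        have := hc.exp (sub σ A) (sub (up σ) M) u [] (by rw [eqA]; exact snA) hu' this
        exact this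
    exact ⟨(𝓜.cand e w l hρ (Ty.pi r hA hB)).sn _ hmem, fun _ => hmem⟩
  | @app Γ A B M N i j r hA hB hM hN ihA ihB ihM ihN =>
    intro w Δ l ρ hρ e σ h1 h2 hl
    have e1 := hM.lev_typ (Ty.pi r hA hB) w l
    have hj : j = m := e1.symm.trans hl
    subst hj
    have e2 := hN.lev_typ hA w l
    have hji := S.le r
    have hfun := (ihM w l hρ h1 h2 e1).2 (Ty.pi r hA hB)
    have hmem : sub σ (Tm.app M N) ∈ 𝓜.I (inst B N) ρ e := by
      rcases Nat.lt_or_eq_of_le hji with hi | hi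
      · rw [𝓜.pi_hi e w l hρ r hi hA hB] at hfun
        obtain ⟨v, hv⟩ := 𝓜.inst_hi e w l hρ hi hA hB hN
        rw [hv]
        have := hfun (sub ρ N) v (hN.sub hρ) (sn_hi hs hN w l hρ (by omega))
        rw [sub_app, eq_hi hN w l h2 (by omega)]
        exact this
      · subst hi
        rw [𝓜.pi_lo e w l hρ r hA hB] at hfun
        rw [𝓜.inst_lo e w l hρ hA hB hN]
        exact hfun _ ((ihN w l hρ h1 h2 e2).2 hA)
    exact ⟨(𝓜.cand e w l hρ (hB.inst hN w)).sn _ hmem, fun _ => hmem⟩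
  | @conv Γ M A B i j hM hA hB c ihM ihA ihB =>
    intro w Δ l ρ hρ e σ h1 h2 hl
    have e1 := hM.lev_typ hA w l
    have hi : i = m := e1.symm.trans hl
    have hij := hA.sort_cv w hB c
    subst hij
    subst hi
    obtain ⟨h3, h4⟩ := ihM w l hρ h1 h2 hl
    refine ⟨h3, fun _ => ?_⟩
    rw [← 𝓜.conv_eq e w l hρ hA hB c]
    exact h4 hA
  | @eps Γ A i hE' hA ihA =>
    intro w Δ l ρ hρ e σ h1 h2 hl
    have e1 := (Ty.eps hE' hA).lev_typ hA w l
    have hi : i = m := e1.symm.trans hl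
    subst hi
    have e2 := hA.lev_srt w l
    have snA : SN (sub ρ A) := sn_hi hs hA w l hρ (by omega)
    have hmem : sub σ (Tm.eps A) ∈ 𝓜.I A ρ e := by
      rw [sub_eps, eq_hi hA w l h2 (by omega)]
      exact (𝓜.cand e w l hρ hA).eps_mem snA
    exact ⟨(𝓜.cand e w l hρ hA).sn _ hmem, fun _ => hmem⟩

/-- a model at level `m` gives strong normalization at level `m` -/
theorem SNge.of_mdl {m : ℕ} (hE : S.E) (hs : SNge S (m + 1)) (𝓜 : Mdl S m) : SNge S m := by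
  intro M A h hl
  by_cases hm : m < lev0 M
  · exact hs M A h hm
  · have := (sound hE hs 𝓜 h WC.nil (LC.nil (fun _ => 0)) (TS.nil Tm.var nil)
      (e := fun _ => 𝓜.d) (σ := Tm.var) (fun x A hx => by cases hx)
      (fun x A hx => by cases hx) (le_antisymm (not_lt.mp hm) hl)).1
    rwa [sub_var] at this

end Vale.Agent.Lib.P340.Core
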