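import Vale.Agent.Lib.P340.Core

/-! Typing of the internal calculus and its metatheory: renaming, substitution, generation,
type correctness, subject reduction, uniqueness of types, levels. -/

namespace Vale.Agent.Lib.P340.Core

open Tm

/-- A nondependent tiered specification with sorts `0, …, n - 1`. If `E` holds then every type
is inhabited by a dummy. -/
structure Sys where
  n : ℕ
  R : ℕ → ℕ → Prop
  le : ∀ {i j}, R i j → j ≤ i
  lt : ∀ {i j}, R i j → i < n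
  E : Prop

abbrev Ctx := ℕ → Option Tm

/-- the context without declarations -/
def nil : Ctx := fun _ => none

def ext (A : Tm) (Γ : Ctx) : Ctx := scons (some (shift A)) (fun n => (Γ n).map shift)

@[simp] theorem ext_zero (A : Tm) (Γ : Ctx) : ext A Γ 0 = some (shift A) := rfl
@[simp] theorem ext_succ (A : Tm) (Γ : Ctx) (n : ℕ) : ext A Γ (n + 1) = (Γ n).map shift := rfl

inductive Ty (S : Sys) : Ctx → Tm → Tm → Prop
  | ax {Γ : Ctx} {i : ℕ} : i + 1 < S.n → Ty S Γ (srt i) (srt (i + 1))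
  | var {Γ : Ctx} {x : ℕ} {A : Tm} {i : ℕ} : Γ x = some A → Ty S Γ A (srt i) → Ty S Γ (var x) A
  | pi {Γ : Ctx} {A B : Tm} {i j : ℕ} : S.R i j → Ty S Γ A (srt i) → Ty S (ext A Γ) B (srt j) →
      Ty S Γ (pi A B) (srt j)
  | lam {Γ : Ctx} {A B M : Tm} {i j : ℕ} : S.R i j → Ty S Γ A (srt i) →
      Ty S (ext A Γ) B (srt j) → Ty S (ext A Γ) M B → Ty S Γ (lam A M) (pi A B)
  | app {Γ : Ctx} {A B M N : Tm} {i j : ℕ} : S.R i j → Ty S Γ A (srt i) →
      Ty S (ext A Γ) B (srt j) → Ty S Γ M (pi A B) → Ty S Γ N A → Ty S Γ (app M N) (inst B N)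
  | conv {Γ : Ctx} {M A B : Tm} {i j : ℕ} : Ty S Γ M A → Ty S Γ A (srt i) →
      Ty S Γ B (srt j) → Cv A B → Ty S Γ M B
  | eps {Γ : Ctx} {A : Tm} {i : ℕ} : S.E → Ty S Γ A (srt i) → Ty S Γ (eps A) A

variable {S : Sys}

/-! ### Renaming and substitution -/

theorem ren_shift_up (ξ : ℕ → ℕ) (A : Tm) : ren (upr ξ) (shift A) = shift (ren ξ A) :=
  upr_succ_comp ξ A

theorem Ty.ren {Γ : Ctx} {M A : Tm} (h : Ty S Γ M A) : ∀ {Δ : Ctx} {ξ : ℕ → ℕ},
    (∀ x A, Γ x = some A → Δ (ξ x) = some (ren ξ A)) → Ty S Δ (ren ξ M) (ren ξ A) := by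
  have key : ∀ {Γ Δ : Ctx} {ξ : ℕ → ℕ} {A : Tm},
      (∀ x A, Γ x = some A → Δ (ξ x) = some (Core.ren ξ A)) →
      ∀ x B, ext A Γ x = some B → ext (Core.ren ξ A) Δ (upr ξ x) = some (Core.ren (upr ξ) B) := by
    intro Γ Δ ξ A hx x B hB
    cases x with
    | zero =>
      simp only [ext_zero, Option.some.injEq] at hB
      subst hB
      simp [upr, ← ren_shift_up]
    | succ n =>
      simp only [ext_succ, Option.map_eq_some_iff] at hB
      obtain ⟨C, hC, rfl⟩ := hB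
      simp only [upr, scons_succ, ext_succ, hx _ _ hC, Option.map_some, ← ren_shift_up]
  induction h with
  | ax h => intro Δ ξ _; exact Ty.ax h
  | var hx _ ih => intro Δ ξ h; exact Ty.var (h _ _ hx) (ih h)
  | pi r _ _ ihA ihB => intro Δ ξ h; exact Ty.pi r (ihA h) (ihB (key h))
  | lam r _ _ _ ihA ihB ihM =>
    intro Δ ξ h; exact Ty.lam r (ihA h) (ihB (key h)) (ihM (key h))
  | app r _ _ _ _ ihA ihB ihM ihN =>
    intro Δ ξ h
    rw [ren_inst]
    exact Ty.app r (ihA h) (ihB (key h)) (ihM h) (ihN h)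
  | conv _ _ _ c ihM ihA ihB => intro Δ ξ h; exact Ty.conv (ihM h) (ihA h) (ihB h) (c.ren ξ)
  | eps e _ ih => intro Δ ξ h; exact Ty.eps e (ih h)

theorem Ty.shift {Γ : Ctx} {M A : Tm} (h : Ty S Γ M A) (B : Tm) :
    Ty S (ext B Γ) (shift M) (shift A) :=
  h.ren (fun x A hx => by simp [hx, Core.shift])

/-- typed substitutions -/
def TS (S : Sys) (Γ : Ctx) (σ : ℕ → Tm) (Δ : Ctx) : Prop :=
  ∀ x A, Γ x = some A → Ty S Δ (σ x) (sub σ A)

theorem TS.up {Γ Δ : Ctx} {σ : ℕ → Tm} {A : Tm} {i : ℕ} (h : TS S Γ σ Δ)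
    (hA : Ty S Δ (sub σ A) (srt i)) : TS S (ext A Γ) (up σ) (ext (sub σ A) Δ) := by
  intro x B hB
  cases x with
  | zero =>
    simp only [ext_zero, Option.some.injEq] at hB
    subst hB
    rw [← shift_sub]
    exact Ty.var rfl (hA.shift _)
  | succ n =>
    simp only [ext_succ, Option.map_eq_some_iff] at hB
    obtain ⟨C, hC, rfl⟩ := hB
    rw [← shift_sub]
    exact (h n C hC).shift _

theorem Ty.sub {Γ : Ctx} {M A : Tm} (h : Ty S Γ M A) : ∀ {Δ : Ctx} {σ : ℕ → Tm},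
    TS S Γ σ Δ → Ty S Δ (sub σ M) (sub σ A) := by
  induction h with
  | ax h => intro Δ ξ _; exact Ty.ax h
  | var hx _ ih => intro Δ ξ h; exact h _ _ hx
  | pi r _ _ ihA ihB => intro Δ ξ h; exact Ty.pi r (ihA h) (ihB (h.up (ihA h)))
  | lam r _ _ _ ihA ihB ihM =>
    intro Δ ξ h
    exact Ty.lam r (ihA h) (ihB (h.up (ihA h))) (ihM (h.up (ihA h)))
  | app r _ _ _ _ ihA ihB ihM ihN =>
    intro Δ ξ h
    rw [sub_inst']
    exact Ty.app r (ihA h) (ihB (h.up (ihA h))) (ihM h) (ihN h)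
  | conv _ _ _ c ihM ihA ihB => intro Δ ξ h; exact Ty.conv (ihM h) (ihA h) (ihB h) (c.sub _)
  | eps e _ ih => intro Δ ξ h; exact Ty.eps e (ih h)

theorem TS.cons {Γ Δ : Ctx} {σ : ℕ → Tm} {A N : Tm} (h : TS S Γ σ Δ)
    (hN : Ty S Δ N (sub σ A)) : TS S (ext A Γ) (scons N σ) Δ := by
  intro x B hB
  cases x with
  | zero =>
    simp only [ext_zero, Option.some.injEq] at hB
    subst hB
    rw [sub_scons_shift]
    exact hN
  | succ n =>
    simp only [ext_succ, Option.map_eq_some_iff] at hB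
    obtain ⟨C, hC, rfl⟩ := hB
    rw [sub_scons_shift]
    exact h n C hC

/-- a context all of whose declarations are typable -/
theorem TS.nil (σ : ℕ → Tm) (Δ : Ctx) : TS S nil σ Δ := by
  intro x A h; cases h

/-- declarations of `Γ` are typable -/
def WC (S : Sys) (Γ : Ctx) : Prop := ∀ x A, Γ x = some A → ∃ i, Ty S Γ A (srt i)

theorem WC.nil : WC S nil := by intro x A h; cases h

theorem WC.ext {Γ : Ctx} {A : Tm} {i : ℕ} (h : WC S Γ) (hA : Ty S Γ A (srt i)) :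
    WC S (ext A Γ) := by
  intro x B hB
  cases x with
  | zero =>
    simp only [ext_zero, Option.some.injEq] at hB
    subst hB
    exact ⟨i, hA.shift _⟩
  | succ n =>
    simp only [ext_succ, Option.map_eq_some_iff] at hB
    obtain ⟨C, hC, rfl⟩ := hB
    obtain ⟨k, hk⟩ := h n C hC
    exact ⟨k, hk.shift _⟩

theorem TS.id {Γ : Ctx} (h : WC S Γ) : TS S Γ Tm.var Γ := by
  intro x A hx
  rw [sub_var]
  obtain ⟨i, hi⟩ := h x A hx
  exact Ty.var hx hi

theorem WC.nil_ext_inst {Γ : Ctx} {A N : Tm} (h : WC S Γ) (hN : Ty S Γ N A) :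
    TS S (Core.ext A Γ) (scons N Tm.var) Γ :=
  (TS.id h).cons (by rw [sub_var]; exact hN)

theorem Ty.inst {Γ : Ctx} {A B M N : Tm} (hM : Ty S (ext A Γ) M B) (hN : Ty S Γ N A)
    (h : WC S Γ) : Ty S Γ (inst M N) (inst B N) :=
  hM.sub (h.nil_ext_inst hN)

/-! ### Generation -/

theorem Ty.gen_srt {Γ : Ctx} {i : ℕ} {C : Tm} (h : Ty S Γ (srt i) C) :
    i + 1 < S.n ∧ Cv (srt (i + 1)) C := by
  generalize hM : srt i = M at h
  induction h with
  | ax h => cases hM; exact ⟨h, Cv.refl _⟩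
  | conv _ _ _ c ih _ _ => obtain ⟨h1, h2⟩ := ih hM; exact ⟨h1, h2.trans c⟩
  | _ => cases hM

theorem Ty.gen_var {Γ : Ctx} {x : ℕ} {C : Tm} (h : Ty S Γ (Tm.var x) C) :
    ∃ A i, Γ x = some A ∧ Ty S Γ A (srt i) ∧ Cv A C := by
  generalize hM : Tm.var x = M at h
  induction h with
  | var h h' => cases hM; exact ⟨_, _, h, h', Cv.refl _⟩
  | conv _ _ _ c ih _ _ =>
    obtain ⟨A, i, h1, h2, h3⟩ := ih hM; exact ⟨A, i, h1, h2, h3.trans c⟩
  | _ => cases hM

theorem Ty.gen_pi {Γ : Ctx} {A B : Tm} {C : Tm} (h : Ty S Γ (Tm.pi A B) C) :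
    ∃ i j, S.R i j ∧ Ty S Γ A (srt i) ∧ Ty S (Core.ext A Γ) B (srt j) ∧ Cv (srt j) C := by
  generalize hM : Tm.pi A B = M at h
  induction h with
  | pi r hA hB => cases hM; exact ⟨_, _, r, hA, hB, Cv.refl _⟩
  | conv _ _ _ c ih _ _ =>
    obtain ⟨i, j, r, h1, h2, h3⟩ := ih hM; exact ⟨i, j, r, h1, h2, h3.trans c⟩
  | _ => cases hM

theorem Ty.gen_lam {Γ : Ctx} {A M : Tm} {C : Tm} (h : Ty S Γ (Tm.lam A M) C) :
    ∃ B i j, S.R i j ∧ Ty S Γ A (srt i) ∧ Ty S (Core.ext A Γ) B (srt j) ∧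
      Ty S (Core.ext A Γ) M B ∧ Cv (Tm.pi A B) C := by
  generalize hM : Tm.lam A M = M at h
  induction h with
  | lam r hA hB hM' => cases hM; exact ⟨_, _, _, r, hA, hB, hM', Cv.refl _⟩
  | conv _ _ _ c ih _ _ =>
    obtain ⟨B, i, j, r, h1, h2, h3, h4⟩ := ih hM; exact ⟨B, i, j, r, h1, h2, h3, h4.trans c⟩
  | _ => cases hM

theorem Ty.gen_app {Γ : Ctx} {M N : Tm} {C : Tm} (h : Ty S Γ (Tm.app M N) C) :
    ∃ A B i j, S.R i j ∧ Ty S Γ A (srt i) ∧ Ty S (Core.ext A Γ) B (srt j) ∧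
      Ty S Γ M (Tm.pi A B) ∧ Ty S Γ N A ∧ Cv (Core.inst B N) C := by
  generalize hM : Tm.app M N = M at h
  induction h with
  | app r hA hB hM' hN' => cases hM; exact ⟨_, _, _, _, r, hA, hB, hM', hN', Cv.refl _⟩
  | conv _ _ _ c ih _ _ =>
    obtain ⟨A, B, i, j, r, h1, h2, h3, h4, h5⟩ := ih hM
    exact ⟨A, B, i, j, r, h1, h2, h3, h4, h5.trans c⟩
  | _ => cases hM

theorem Ty.gen_eps {Γ : Ctx} {A : Tm} {C : Tm} (h : Ty S Γ (Tm.eps A) C) :
    S.E ∧ ∃ i, Ty S Γ A (srt i) ∧ Cv A C := by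
  generalize hM : Tm.eps A = M at h
  induction h with
  | eps e hA => cases hM; exact ⟨e, _, hA, Cv.refl _⟩
  | conv _ _ _ c ih _ _ =>
    obtain ⟨e, i, h1, h2⟩ := ih hM; exact ⟨e, i, h1, h2.trans c⟩
  | _ => cases hM

/-! ### Type correctness, subject reduction, uniqueness -/

theorem Ty.tc {Γ : Ctx} {M A : Tm} (h : Ty S Γ M A) (w : WC S Γ) :
    (∃ k, A = srt k) ∨ ∃ i, Ty S Γ A (srt i) := by
  cases h with
  | ax h => exact Or.inl ⟨_, rfl⟩
  | var _ h => exact Or.inr ⟨_, h⟩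
  | pi _ _ _ => exact Or.inl ⟨_, rfl⟩
  | lam r hA hB _ => exact Or.inr ⟨_, Ty.pi r hA hB⟩
  | app r hA hB hM hN => exact Or.inr ⟨_, hB.inst hN w⟩
  | conv _ _ h _ => exact Or.inr ⟨_, h⟩
  | eps _ h => exact Or.inr ⟨_, h⟩

theorem Ty.conv' {Γ : Ctx} {M A B : Tm} {j : ℕ} (h : Ty S Γ M A)
    (hB : Ty S Γ B (srt j)) (c : Cv A B) (hA : ∃ i, Ty S Γ A (srt i)) : Ty S Γ M B := by
  obtain ⟨i, hA⟩ := hA
  exact Ty.conv h hA hB c

theorem TS.ctx_conv {Γ : Ctx} {A A' : Tm} {i j : ℕ} (w : WC S Γ)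
    (hA : Ty S Γ A (srt i)) (hA' : Ty S Γ A' (srt j)) (c : Cv A A') :
    TS S (Core.ext A Γ) Tm.var (Core.ext A' Γ) := by
  intro x B hB
  rw [sub_var]
  cases x with
  | zero =>
    simp only [ext_zero, Option.some.injEq] at hB
    subst hB
    exact Ty.conv (Ty.var rfl (hA'.shift A')) (hA'.shift A') (hA.shift A') (c.symm.ren _)
  | succ n =>
    simp only [ext_succ, Option.map_eq_some_iff] at hB
    obtain ⟨C, hC, rfl⟩ := hB
    obtain ⟨k, hk⟩ := w n C hC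
    exact (Ty.var hC hk).shift A'

theorem Ty.ctx_conv {Γ : Ctx} {A A' M B : Tm} {i j : ℕ} (h : Ty S (Core.ext A Γ) M B)
    (w : WC S Γ) (hA : Ty S Γ A (srt i)) (hA' : Ty S Γ A' (srt j)) (c : Cv A A') :
    Ty S (Core.ext A' Γ) M B := by
  have := h.sub (TS.ctx_conv w hA hA' c)
  rwa [sub_var, sub_var] at this

theorem Ty.step {Γ : Ctx} {M A : Tm} (h : Ty S Γ M A) : WC S Γ → ∀ {M' : Tm}, Step M M' →
    Ty S Γ M' A := by
  induction h with
  | ax h => intro w M' s; cases s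
  | var h h' ih => intro w M' s; cases s
  | pi r hA hB ihA ihB =>
    intro w M' s
    cases s with
    | piD _ s =>
      have hA' := ihA w s
      exact Ty.pi r hA' (hB.ctx_conv w hA hA' (Cv.of_step s))
    | piB _ s => exact Ty.pi r hA (ihB (w.ext hA) s)
  | @lam Γ A B M i j r hA hB hM ihA ihB ihM =>
    intro w M' s
    cases s with
    | lamD _ s =>
      have hA' := ihA w s
      have hB' := hB.ctx_conv w hA hA' (Cv.of_step s)
      exact Ty.conv (Ty.lam r hA' hB' (hM.ctx_conv w hA hA' (Cv.of_step s)))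
        (Ty.pi r hA' hB') (Ty.pi r hA hB) (Cv.pi (Cv.of_step s).symm (Cv.refl _))
    | lamB _ s => exact Ty.lam r hA hB (ihM (w.ext hA) s)
  | @app Γ A B M N i j r hA hB hM hN ihA ihB ihM ihN =>
    intro w M' s
    cases s with
    | appL _ s => exact Ty.app r hA hB (ihM w s) hN
    | appR _ s =>
      have hN' := ihN w s
      exact Ty.conv (Ty.app r hA hB hM hN') (hB.inst hN' w) (hB.inst hN w)
        (Cv.inst (Cv.refl _) (Cv.of_step s).symm)
    | beta A0 M0 _ =>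
      obtain ⟨B0, i0, j0, r0, hA0, hB0, hM0, c⟩ := hM.gen_lam
      obtain ⟨c1, c2⟩ := c.pi_inj
      have hN0 : Ty S Γ N A0 := Ty.conv hN hA hA0 c1.symm
      exact Ty.conv (hM0.inst hN0 w) (hB0.inst hN0 w) (hB.inst hN w) (Cv.inst c2 (Cv.refl _))
  | conv h1 h2 h3 c ih _ _ => intro w M' s; exact Ty.conv (ih w s) h2 h3 c
  | @eps Γ A i e h ih =>
    intro w M' s
    cases s with
    | epsD s =>
      have hA' := ih w s
      exact Ty.conv (Ty.eps e hA') hA' h (Cv.of_step s).symm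

theorem Ty.red {Γ : Ctx} {M M' A : Tm} (h : Ty S Γ M A) (w : WC S Γ) (r : Red M M') :
    Ty S Γ M' A := by
  induction r with
  | refl => exact h
  | tail _ s ih => exact ih.step w s

theorem Ty.ut {Γ : Ctx} {M A : Tm} (h : Ty S Γ M A) : ∀ {B : Tm}, Ty S Γ M B → Cv A B := by
  induction h with
  | ax h => intro B hB; exact hB.gen_srt.2
  | var h _ _ =>
    intro B hB
    obtain ⟨A', i, h1, h2, h3⟩ := hB.gen_var
    rw [h] at h1
    cases h1
    exact h3
  | pi r hA hB ihA ihB =>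
    intro C hC
    obtain ⟨i', j', r', h1, h2, h3⟩ := hC.gen_pi
    have := (ihB h2).srt_inj
    subst this
    exact h3
  | lam r hA hB hM ihA ihB ihM =>
    intro C hC
    obtain ⟨B', i', j', r', h1, h2, h3, h4⟩ := hC.gen_lam
    exact (Cv.pi (Cv.refl _) (ihM h3)).trans h4
  | app r hA hB hM hN ihA ihB ihM ihN =>
    intro C hC
    obtain ⟨A', B', i', j', r', h1, h2, h3, h4, h5⟩ := hC.gen_app
    exact (Cv.inst (ihM h3).pi_inj.2 (Cv.refl _)).trans h5
  | conv _ _ _ c ih _ _ =>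
    intro C hC
    exact c.symm.trans (ih hC)
  | eps _ _ _ =>
    intro B hB
    obtain ⟨_, i, h1, h2⟩ := hB.gen_eps
    exact h2

theorem Ty.sort_unique {Γ : Ctx} {A : Tm} {i j : ℕ} (h : Ty S Γ A (srt i))
    (h' : Ty S Γ A (srt j)) : i = j := (h.ut h').srt_inj

/-- convertible types have the same sort -/
theorem Ty.sort_cv {Γ : Ctx} {A B : Tm} {i j : ℕ} (w : WC S Γ) (h : Ty S Γ A (srt i))
    (h' : Ty S Γ B (srt j)) (c : Cv A B) : i = j := by
  obtain ⟨C, h1, h2⟩ := c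
  exact (h.red w h1).sort_unique (h'.red w h2)

theorem Ty.sort_lt {Γ : Ctx} {M A : Tm} (h : Ty S Γ M A) : ∀ k, A = srt k → WC S Γ → k < S.n := by
  induction h with
  | ax h => intro k hk _; cases hk; exact h
  | var _ h _ =>
    intro k hk _
    subst hk
    have := h.gen_srt.1
    omega
  | pi r _ _ _ ihB =>
    intro k hk w
    cases hk
    have := S.lt r
    have := S.le r
    omega
  | lam _ _ _ _ => intro k hk; cases hk
  | app r hA hB hM hN ihA ihB ihM ihN =>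
    intro k hk w
    have h := hB.inst hN w
    rw [hk] at h
    have := h.gen_srt.1
    omega
  | conv _ _ h _ _ _ _ =>
    intro k hk w
    subst hk
    have := h.gen_srt.1
    omega
  | eps _ h _ =>
    intro k hk _
    subst hk
    have := h.gen_srt.1
    omega

end Vale.Agent.Lib.P340.Core
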